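import Vale.Agent.P043.Three.Defs

/-!
# Packing the bars of one window
-/

namespace Vale.Agent.P043.Three

/-- A natural number is determined by its quotient and remainder. -/
private lemma digit_unique {n m m' d d' : ℕ} (hd : d < n) (hd' : d' < n)
    (h : m * n + d = m' * n + d') : m = m' ∧ d = d' := by
  have hm : m = m' := by
    rcases lt_trichotomy m m' with hlt | heq | hgt
    · have := Nat.mul_le_mul_right n hlt
      rw [Nat.succ_mul] at this
      omega
    · exact heq
    · have := Nat.mul_le_mul_right n hgt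
      rw [Nat.succ_mul] at this
      omega
  subst hm
  exact ⟨rfl, by omega⟩

/-- A multiple of the modulus plus a remainder stays below the next bound. -/
private lemma digit_lt {n m M d : ℕ} (hm : m < M) (hd : d < n) : m * n + d < M * n := by
  have := Nat.mul_le_mul_right n hm
  rw [Nat.succ_mul] at this
  omega

/-- Natural numbers below `p` are determined by their class modulo `p`. -/
private lemma natCast_inj_of_lt {p a b : ℕ} (ha : a < p) (hb : b < p)
    (h : (a : ZMod p) = (b : ZMod p)) : a = b := by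
  rw [ZMod.natCast_eq_natCast_iff', Nat.mod_eq_of_lt ha, Nat.mod_eq_of_lt hb] at h
  exact h

/-- The prime `p` splits into multiples of `q`, of `r` and of `q * r`. -/
private lemma exists_split (p q r : ℕ) (hq : q.Prime) (hr : r.Prime) (hrq : r < q)
    (hbig : 20 * (q * r) + 20 ≤ p) :
    ∃ x y J : ℕ, x < r ∧ y < q ∧ x * q + y * r + J * (q * r) = p := by
  have : Fact q.Prime := ⟨hq⟩
  have : Fact r.Prime := ⟨hr⟩
  have hqr : (q : ZMod r) ≠ 0 := by
    rw [Ne, ZMod.natCast_eq_zero_iff]
    exact fun h => hrq.ne ((Nat.prime_dvd_prime_iff_eq hr hq).1 h)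
  have hrq' : (r : ZMod q) ≠ 0 := by
    rw [Ne, ZMod.natCast_eq_zero_iff]
    exact fun h => hrq.ne' ((Nat.prime_dvd_prime_iff_eq hq hr).1 h)
  set x := ((p : ZMod r) / q).val with hxdef
  set y := ((p : ZMod q) / r).val with hydef
  have hx : x < r := ZMod.val_lt _
  have hy : y < q := ZMod.val_lt _
  have hxq : x * q ≤ q * r := (Nat.mul_le_mul_right q hx.le).trans_eq (mul_comm r q)
  have hyr : y * r ≤ q * r := Nat.mul_le_mul_right r hy.le
  have hle : x * q + y * r ≤ p := by omega
  have h1 : r ∣ p - (x * q + y * r) := by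
    rw [← ZMod.natCast_eq_zero_iff, Nat.cast_sub hle]
    push_cast
    rw [hxdef, ZMod.natCast_zmod_val, div_mul_cancel₀ _ hqr, ZMod.natCast_self]
    ring
  have h2 : q ∣ p - (x * q + y * r) := by
    rw [← ZMod.natCast_eq_zero_iff, Nat.cast_sub hle]
    push_cast
    rw [hydef, ZMod.natCast_zmod_val, div_mul_cancel₀ _ hrq', ZMod.natCast_self]
    ring
  obtain ⟨J, hJ⟩ := Nat.Coprime.mul_dvd_of_dvd_of_dvd
    ((Nat.coprime_primes hq hr).2 hrq.ne') h2 h1
  exact ⟨x, y, J, hx, hy, by rw [mul_comm J]; omega⟩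

/-- The lines of a block outside the two reserved sets can be numbered from zero. -/
private lemma exists_rank (p : ℕ) [NeZero p] (κ cA cB : ZMod 5) (hκ : κ ≠ 0) (hc : cA ≠ cB)
    (nA nB N : ℕ) (hA : 5 * nA + 5 ≤ p) (hB : 5 * nB + 5 ≤ p) (hN : nA + nB + N = p) :
    ∃ rk : ZMod 5 × ZMod p → ℕ,
      (∀ l, ¬(l.1 = cA ∧ l.2.val / 5 < nA) → ¬(l.1 = cB ∧ l.2.val / 5 < nB) → rk l < N) ∧
      ∀ l l', ¬(l.1 = cA ∧ l.2.val / 5 < nA) → ¬(l.1 = cB ∧ l.2.val / 5 < nB) →
        κ * l.1 + (l.2.val : ZMod 5) = κ * l'.1 + (l'.2.val : ZMod 5) →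
        rk l = rk l' → l = l' := by
  classical
  have : Fact (Nat.Prime 5) := ⟨by norm_num⟩
  let S : ZMod 5 → Finset (ZMod 5 × ZMod p) := fun u => Finset.univ.filter fun l =>
    κ * l.1 + (l.2.val : ZMod 5) = u ∧
      ¬(l.1 = cA ∧ l.2.val / 5 < nA) ∧ ¬(l.1 = cB ∧ l.2.val / 5 < nB)
  have hcard : ∀ u, (S u).card ≤ N := by
    intro u
    let im : ZMod 5 → ℕ → Finset (ZMod 5 × ZMod p) := fun c n =>
      (Finset.range n).image fun k => (c, (((u - κ * c).val + 5 * k : ℕ) : ZMod p))
    have him : ∀ c n, 5 * n + 5 ≤ p →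
        (im c n).card = n ∧ ∀ l ∈ im c n,
          κ * l.1 + (l.2.val : ZMod 5) = u ∧ l.1 = c ∧ l.2.val / 5 < n := by
      intro c n hn
      have ha := (u - κ * c).val_lt
      refine ⟨?_, ?_⟩
      · rw [Finset.card_image_of_injOn, Finset.card_range]
        intro k hk k' hk' hkk
        simp only [Finset.coe_range, Set.mem_Iio] at hk hk'
        have := natCast_inj_of_lt (p := p) (by omega) (by omega) (congrArg Prod.snd hkk)
        omega
      · intro l hl
        obtain ⟨k, hk, rfl⟩ := Finset.mem_image.1 hl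
        rw [Finset.mem_range] at hk
        have hv : ((((u - κ * c).val + 5 * k : ℕ) : ZMod p)).val = (u - κ * c).val + 5 * k :=
          ZMod.val_natCast_of_lt (by omega)
        refine ⟨?_, rfl, ?_⟩
        · simp only
          rw [hv, Nat.cast_add, Nat.cast_mul, ZMod.natCast_zmod_val,
            show ((5 : ℕ) : ZMod 5) = 0 from rfl]
          ring
        · simp only
          rw [hv]
          omega
    obtain ⟨hA1, hA2⟩ := him cA nA hA
    obtain ⟨hB1, hB2⟩ := him cB nB hB
    have hd1 : Disjoint (im cA nA) (im cB nB) := Finset.disjoint_left.2 fun l h h' =>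
      hc ((hA2 l h).2.1.symm.trans (hB2 l h').2.1)
    have hd2 : Disjoint (S u) (im cA nA ∪ im cB nB) := Finset.disjoint_left.2 fun l h h' => by
      obtain ⟨-, h1, h2⟩ := (Finset.mem_filter.1 h).2
      rcases Finset.mem_union.1 h' with h' | h'
      · exact h1 (hA2 l h').2
      · exact h2 (hB2 l h').2
    have hle : (S u ∪ (im cA nA ∪ im cB nB)).card ≤ (Finset.univ : Finset (ZMod p)).card := by
      refine Finset.card_le_card_of_injOn Prod.snd (fun _ _ => Finset.mem_coe.2 (Finset.mem_univ _)) ?_
      have hblk : ∀ l ∈ S u ∪ (im cA nA ∪ im cB nB), κ * l.1 + (l.2.val : ZMod 5) = u := by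
        intro l hl
        rcases Finset.mem_union.1 hl with h | h
        · exact (Finset.mem_filter.1 h).2.1
        · rcases Finset.mem_union.1 h with h | h
          · exact (hA2 l h).1
          · exact (hB2 l h).1
      intro l hl l' hl' hll
      have h1 := (hblk l hl).trans (hblk l' hl').symm
      rw [hll] at h1
      exact Prod.ext (mul_left_cancel₀ hκ (add_right_cancel h1)) hll
    rw [Finset.card_union_of_disjoint hd2, Finset.card_union_of_disjoint hd1, hA1, hB1,
      Finset.card_univ, ZMod.card] at hle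
    omega
  refine ⟨fun l => (S (κ * l.1 + (l.2.val : ZMod 5))).toList.idxOf l, ?_, ?_⟩
  · intro l h1 h2
    have hmem : l ∈ (S (κ * l.1 + (l.2.val : ZMod 5))).toList := by
      exact Finset.mem_toList.2 (Finset.mem_filter.2 ⟨Finset.mem_univ _, rfl, h1, h2⟩)
    exact lt_of_lt_of_le (List.idxOf_lt_length_iff.2 hmem)
      (by rw [Finset.length_toList]; exact hcard _)
  · intro l l' h1 h2 hu hrk
    have hmem : l ∈ (S (κ * l.1 + (l.2.val : ZMod 5))).toList := by
      exact Finset.mem_toList.2 (Finset.mem_filter.2 ⟨Finset.mem_univ _, rfl, h1, h2⟩)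
    simp only [← hu] at hrk
    exact (List.idxOf_inj hmem).1 hrk

/-- Lines are indexed by a residue class `c` modulo 5 and an index `j` modulo `p`; a line
lies in the block `κ * c + j.val`. A line of colour `true` consists of `r` bars of
length `q`, one for each `g : ZMod r`; a line of colour `false` of `q` bars of length
`r`. There is one placement of bars into `q * r` rows of length `p` in each block that
is free of collisions for every colouring with the two prescribed classes. -/
theorem exists_placement (p q r : ℕ) (hp : p.Prime) (hq : q.Prime) (hr : r.Prime) (hrq : r < q)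
    (hr3 : 5 < r) (hbig : 20 * (q * r) + 20 ≤ p) (κ cA cB : ZMod 5) (hκ : κ ≠ 0)
    (hc : cA ≠ cB) :
    ∃ (placeA : ZMod 5 × ZMod p → ZMod r → (Fin q × Fin r) × ℕ)
      (placeB : ZMod 5 × ZMod p → ZMod q → (Fin q × Fin r) × ℕ),
      ∀ col : ZMod 5 × ZMod p → Bool, (∀ j, col (cA, j) = true) → (∀ j, col (cB, j) = false) →
        (∀ l l' g g', col l = true → col l' = true → ∀ d d', d < q → d' < q →
          κ * l.1 + (l.2.val : ZMod 5) = κ * l'.1 + (l'.2.val : ZMod 5) →
          (placeA l g).1 = (placeA l' g').1 →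
          (((placeA l g).2 + d : ℕ) : ZMod p) = (((placeA l' g').2 + d' : ℕ) : ZMod p) →
          l = l' ∧ g = g' ∧ d = d') ∧
        (∀ l l' g g', col l = false → col l' = false → ∀ d d', d < r → d' < r →
          κ * l.1 + (l.2.val : ZMod 5) = κ * l'.1 + (l'.2.val : ZMod 5) →
          (placeB l g).1 = (placeB l' g').1 →
          (((placeB l g).2 + d : ℕ) : ZMod p) = (((placeB l' g').2 + d' : ℕ) : ZMod p) →
          l = l' ∧ g = g' ∧ d = d') ∧
        (∀ l l' g g', col l = true → col l' = false → ∀ d d', d < q → d' < r →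
          κ * l.1 + (l.2.val : ZMod 5) = κ * l'.1 + (l'.2.val : ZMod 5) →
          (placeA l g).1 = (placeB l' g').1 →
          (((placeA l g).2 + d : ℕ) : ZMod p) ≠ (((placeB l' g').2 + d' : ℕ) : ZMod p)) := by
  have : NeZero p := ⟨hp.ne_zero⟩
  have : NeZero q := ⟨hq.ne_zero⟩
  have : NeZero r := ⟨hr.ne_zero⟩
  obtain ⟨x, y, J, hx, hy, hsplit⟩ := exists_split p q r hq hr hrq hbig
  have hQR : 0 < q * r := Nat.mul_pos hq.pos hr.pos
  have hxle : q * x ≤ q * r := Nat.mul_le_mul_left q hx.le
  have hyle : r * y ≤ q * r := (Nat.mul_le_mul_left r hy.le).trans (le_of_eq (mul_comm r q))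
  obtain ⟨rk, hrk, hrkinj⟩ := exists_rank p κ cA cB hκ hc (q * x) (r * y) (J * (q * r))
    (by omega) (by omega) (by rw [mul_comm q x, mul_comm r y]; exact hsplit)
  let row : ℕ → Fin q × Fin r := fun n => finProdFinEquiv.symm ⟨n % (q * r), Nat.mod_lt _ hQR⟩
  have hrow : ∀ n n', row n = row n' → n % (q * r) = n' % (q * r) := fun n n' h =>
    congrArg Fin.val (finProdFinEquiv.symm.injective h)
  have hidx : ∀ n n', row n = row n' → n / (q * r) = n' / (q * r) → n = n' := fun n n' h h' => by
    have := hrow n n' h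
    rw [← Nat.div_add_mod n (q * r), ← Nat.div_add_mod n' (q * r), h', this]
  refine ⟨fun l g => if l.1 = cA ∧ l.2.val / 5 < q * x then
      (row (l.2.val / 5 * r + g.val), (l.2.val / 5 * r + g.val) / (q * r) * q)
    else (row (rk l), x * q + y * r + rk l / (q * r) * (q * r) + g.val * q),
    fun l g => if l.1 = cB ∧ l.2.val / 5 < r * y then
      (row (l.2.val / 5 * q + g.val), x * q + (l.2.val / 5 * q + g.val) / (q * r) * r)
    else (row (rk l), x * q + y * r + rk l / (q * r) * (q * r) + g.val * r), ?_⟩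
  intro col hcolA hcolB
  have htrue : ∀ l, col l = true → ¬(l.1 = cB ∧ l.2.val / 5 < r * y) := by
    rintro ⟨c, j⟩ h ⟨rfl : c = cB, -⟩
    simp [hcolB j] at h
  have hfalse : ∀ l, col l = false → ¬(l.1 = cA ∧ l.2.val / 5 < q * x) := by
    rintro ⟨c, j⟩ h ⟨rfl : c = cA, -⟩
    simp [hcolA j] at h
  have hHA : ∀ (k : ℕ) (g : ZMod r) (d : ℕ), k < q * x → d < q →
      (k * r + g.val) / (q * r) * q + d < x * q := by
    intro k g d hk hd
    refine digit_lt ((Nat.div_lt_iff_lt_mul hQR).2 ?_) hd
    calc k * r + g.val < q * x * r := digit_lt hk g.val_lt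
      _ = x * (q * r) := by ring
  have hHB : ∀ (k : ℕ) (g : ZMod q) (d : ℕ), k < r * y → d < r →
      (k * q + g.val) / (q * r) * r + d < y * r := by
    intro k g d hk hd
    refine digit_lt ((Nat.div_lt_iff_lt_mul hQR).2 ?_) hd
    calc k * q + g.val < r * y * q := digit_lt hk g.val_lt
      _ = y * (q * r) := by ring
  have hST : ∀ (k e : ℕ), k < J * (q * r) → e < q * r →
      k / (q * r) * (q * r) + e < J * (q * r) := fun k e hk he =>
    digit_lt ((Nat.div_lt_iff_lt_mul hQR).2 hk) he
  have hbarA : ∀ (g : ZMod r) (d : ℕ), d < q → g.val * q + d < q * r := fun g d hd =>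
    (digit_lt g.val_lt hd).trans_eq (mul_comm r q)
  have hbarB : ∀ (g : ZMod q) (d : ℕ), d < r → g.val * r + d < q * r := fun g d hd =>
    digit_lt g.val_lt hd
  have hline : ∀ l l' : ZMod 5 × ZMod p, ∀ c, l.1 = c → l'.1 = c → l.2.val / 5 = l'.2.val / 5 →
      κ * l.1 + (l.2.val : ZMod 5) = κ * l'.1 + (l'.2.val : ZMod 5) → l = l' := by
    intro l l' c h1 h1' hk hu
    rw [h1, h1', add_right_inj, ZMod.natCast_eq_natCast_iff'] at hu
    exact Prod.ext (h1.trans h1'.symm) (ZMod.val_injective p (by omega))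
  refine ⟨?_, ?_, ?_⟩
  · intro l l' g g' hl hl' d d' hd hd' hu
    by_cases h : l.1 = cA ∧ l.2.val / 5 < q * x <;>
      by_cases h' : l'.1 = cA ∧ l'.2.val / 5 < q * x <;>
      simp only [h, h', if_true, if_false, and_self] <;> intro hr' hpos
    · have hb := hHA _ g d h.2 hd
      have hb' := hHA _ g' d' h'.2 hd'
      obtain ⟨hm, hdd⟩ := digit_unique hd hd' (natCast_inj_of_lt (by omega) (by omega) hpos)
      obtain ⟨hk, hg⟩ := digit_unique g.val_lt g'.val_lt (hidx _ _ hr' hm)
      exact ⟨hline l l' cA h.1 h'.1 hk hu, ZMod.val_injective r hg, hdd⟩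
    · have hb := hHA _ g d h.2 hd
      have hb' := hST _ _ (hrk l' h' (htrue l' hl')) (hbarA g' d' hd')
      have := natCast_inj_of_lt (by omega) (by omega) hpos
      omega
    · have hb' := hHA _ g' d' h'.2 hd'
      have hb := hST _ _ (hrk l h (htrue l hl)) (hbarA g d hd)
      have := natCast_inj_of_lt (by omega) (by omega) hpos
      omega
    · have hb := hST _ _ (hrk l h (htrue l hl)) (hbarA g d hd)
      have hb' := hST _ _ (hrk l' h' (htrue l' hl')) (hbarA g' d' hd')
      have heq := natCast_inj_of_lt (by omega) (by omega) hpos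
      obtain ⟨hm, he⟩ := digit_unique (hbarA g d hd) (hbarA g' d' hd')
        (show rk l / (q * r) * (q * r) + (g.val * q + d) =
          rk l' / (q * r) * (q * r) + (g'.val * q + d') by omega)
      obtain ⟨hg, hdd⟩ := digit_unique hd hd' he
      exact ⟨hrkinj l l' h (htrue l hl) hu (hidx _ _ hr' hm), ZMod.val_injective r hg, hdd⟩
  · intro l l' g g' hl hl' d d' hd hd' hu
    by_cases h : l.1 = cB ∧ l.2.val / 5 < r * y <;>
      by_cases h' : l'.1 = cB ∧ l'.2.val / 5 < r * y <;>
      simp only [h, h', if_true, if_false, and_self] <;> intro hr' hpos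
    · have hb := hHB _ g d h.2 hd
      have hb' := hHB _ g' d' h'.2 hd'
      have heq := natCast_inj_of_lt (by omega) (by omega) hpos
      obtain ⟨hm, hdd⟩ := digit_unique hd hd'
        (show (l.2.val / 5 * q + g.val) / (q * r) * r + d =
          (l'.2.val / 5 * q + g'.val) / (q * r) * r + d' by omega)
      obtain ⟨hk, hg⟩ := digit_unique g.val_lt g'.val_lt (hidx _ _ hr' hm)
      exact ⟨hline l l' cB h.1 h'.1 hk hu, ZMod.val_injective q hg, hdd⟩
    · have hb := hHB _ g d h.2 hd
      have hb' := hST _ _ (hrk l' (hfalse l' hl') h') (hbarB g' d' hd')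
      have := natCast_inj_of_lt (by omega) (by omega) hpos
      omega
    · have hb' := hHB _ g' d' h'.2 hd'
      have hb := hST _ _ (hrk l (hfalse l hl) h) (hbarB g d hd)
      have := natCast_inj_of_lt (by omega) (by omega) hpos
      omega
    · have hb := hST _ _ (hrk l (hfalse l hl) h) (hbarB g d hd)
      have hb' := hST _ _ (hrk l' (hfalse l' hl') h') (hbarB g' d' hd')
      have heq := natCast_inj_of_lt (by omega) (by omega) hpos
      obtain ⟨hm, he⟩ := digit_unique (hbarB g d hd) (hbarB g' d' hd')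
        (show rk l / (q * r) * (q * r) + (g.val * r + d) =
          rk l' / (q * r) * (q * r) + (g'.val * r + d') by omega)
      obtain ⟨hg, hdd⟩ := digit_unique hd hd' he
      exact ⟨hrkinj l l' (hfalse l hl) h hu (hidx _ _ hr' hm), ZMod.val_injective q hg, hdd⟩
  · intro l l' g g' hl hl' d d' hd hd' hu
    by_cases h : l.1 = cA ∧ l.2.val / 5 < q * x <;>
      by_cases h' : l'.1 = cB ∧ l'.2.val / 5 < r * y <;>
      simp only [h, h', if_true, if_false, and_self] <;> intro hr' hpos
    · have hb := hHA _ g d h.2 hd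
      have hb' := hHB _ g' d' h'.2 hd'
      have := natCast_inj_of_lt (by omega) (by omega) hpos
      omega
    · have hb := hHA _ g d h.2 hd
      have hb' := hST _ _ (hrk l' (hfalse l' hl') h') (hbarB g' d' hd')
      have := natCast_inj_of_lt (by omega) (by omega) hpos
      omega
    · have hb' := hHB _ g' d' h'.2 hd'
      have hb := hST _ _ (hrk l h (htrue l hl)) (hbarA g d hd)
      have := natCast_inj_of_lt (by omega) (by omega) hpos
      omega
    · have hb := hST _ _ (hrk l h (htrue l hl)) (hbarA g d hd)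
      have hb' := hST _ _ (hrk l' (hfalse l' hl') h') (hbarB g' d' hd')
      have heq := natCast_inj_of_lt (by omega) (by omega) hpos
      obtain ⟨hm, -⟩ := digit_unique (hbarA g d hd) (hbarB g' d' hd')
        (show rk l / (q * r) * (q * r) + (g.val * q + d) =
          rk l' / (q * r) * (q * r) + (g'.val * r + d') by omega)
      have := hrkinj l l' h (htrue l hl) hu (hidx _ _ hr' hm)
      rw [this, hl'] at hl
      exact Bool.false_ne_true hl

end Vale.Agent.P043.Three
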