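import Vale.Agent.P043.Three.Defs
import Vale.Agent.P043.Puzzle
import Vale.Agent.P043.Window

/-!
# Moduli and the code of colour tuples
-/

namespace Vale.Agent.P043.Three

/-- Three encoded colours. -/
abbrev Tup := Fin 125 × Fin 125 × Fin 125

/-- The residue of an encoded colour. -/
def colRes (i : Fin 125) : ZMod 5 := ((i.1 / 25 : ℕ) : ZMod 5)

/-- The unit part of an encoded colour. -/
def colUnit (i : Fin 125) : ZMod 25 := ((i.1 % 25 : ℕ) : ZMod 25)

/-- Encoding of a residue and a unit part. -/
def encode (c : ZMod 5) (u : ZMod 25) : Fin 125 :=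
  ⟨c.val * 25 + u.val, by have := c.val_lt; have := u.val_lt; omega⟩

lemma colRes_encode (c : ZMod 5) (u : ZMod 25) : colRes (encode c u) = c := by
  have := u.val_lt
  simp only [colRes, encode]
  rw [show (c.val * 25 + u.val) / 25 = c.val by omega, ZMod.natCast_zmod_val]

lemma colUnit_encode (c : ZMod 5) (u : ZMod 25) : colUnit (encode c u) = u := by
  have := u.val_lt
  simp only [colUnit, encode]
  rw [show (c.val * 25 + u.val) % 25 = u.val by omega, ZMod.natCast_zmod_val]

/-- A residue compatible with a unit part. -/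
def Fits (c : ZMod 5) (u : ZMod 25) : Prop := red u ≠ 0 ∧ (c ≠ 0 → red u = c)

/-- The admissible tuples. -/
def Good (t : Tup) : Prop :=
  colRes t.1 + colRes t.2.1 = colRes t.2.2 ∧
    Fits (colRes t.1) (colUnit t.1) ∧ Fits (colRes t.2.1) (colUnit t.2.1) ∧
    Fits (colRes t.2.2) (colUnit t.2.2) ∧
    Compat (colUnit t.1) (colUnit t.2.1) (colUnit t.2.2)

/-- The entry of a tuple in field `f`. -/
def entry (t : Tup) (f : Fin 3) : Fin 125 := ![t.1, t.2.1, t.2.2] f

/-- The index of a field at a site. -/
def fieldIndex (f : Fin 3) (x : ℤ × ℤ) : ℤ := ![x.1, x.2, x.1 + x.2] f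

/-- The tuple at a site in the intended solution. -/
def tupleAt (x : ℤ × ℤ) : Tup :=
  (encode x.1 (unitPart x.1), encode x.2 (unitPart x.2),
    encode ((x.1 + x.2 : ℤ) : ZMod 5) (unitPart (x.1 + x.2)))

lemma good_tupleAt (x : ℤ × ℤ) : Good (tupleAt x) := by
  simp only [Good, tupleAt, colRes_encode, colUnit_encode, Fits]
  exact ⟨by push_cast; rfl, red_unitPart _, red_unitPart _, red_unitPart _, compat_unitPart _ _⟩

lemma colRes_entry_tupleAt (f : Fin 3) (x : ℤ × ℤ) :
    colRes (entry (tupleAt x) f) = (fieldIndex f x : ZMod 5) := by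
  fin_cases f <;> simp [entry, tupleAt, fieldIndex, colRes_encode]

/-- The bits: field, value, pair of padding classes, copy; and one bit for the forcing. -/
abbrev Bit := (Fin 3 × (Fin 125 × (Fin 2 × Fin 2))) ⊕ Unit

/-- The padding class of bit value `true`. -/
def padA : Bit → ZMod 5
  | Sum.inl (_, _, k, _) => ((1 + 2 * k.1 : ℕ) : ZMod 5)
  | Sum.inr _ => 2

/-- The padding class of bit value `false`. -/
def padB : Bit → ZMod 5
  | Sum.inl (_, _, k, _) => ((2 + 2 * k.1 : ℕ) : ZMod 5)
  | Sum.inr _ => 0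

lemma padA_ne_padB (b : Bit) : padA b ≠ padB b := by
  rcases b with ⟨f, v, k, c⟩ | _
  · fin_cases k <;> simp [padA, padB] <;> decide
  · simp [padA, padB]; decide

/-- The field of a bit. -/
def fieldOf : Bit → Fin 3
  | Sum.inl (f, _) => f
  | Sum.inr _ => 0

/-- The value of a bit on a tuple. -/
def code (t : Tup) : Bit → Bool
  | Sum.inl (f, v, k, _) =>
      if colRes (entry t f) = ((1 + 2 * k.1 : ℕ) : ZMod 5) then true
      else if colRes (entry t f) = ((2 + 2 * k.1 : ℕ) : ZMod 5) then false
      else decide (entry t f = v)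
  | Sum.inr _ => residueColour (colRes t.1)

lemma code_padA (t : Tup) (b : Bit) (h : colRes (entry t (fieldOf b)) = padA b) :
    code t b = true := by
  rcases b with ⟨f, v, k, c⟩ | _
  · simp only [padA, fieldOf] at h
    simp [code, h]
  · simp only [padA, fieldOf, entry, Matrix.cons_val_zero] at h
    simp [code, h, residueColour]; decide

lemma code_padB (t : Tup) (b : Bit) (h : colRes (entry t (fieldOf b)) = padB b) :
    code t b = false := by
  rcases b with ⟨f, v, k, c⟩ | _
  · have hne := padA_ne_padB (Sum.inl (f, v, k, c))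
    simp only [padA, padB, fieldOf] at h hne
    simp only [code, h, if_neg hne.symm, if_pos]
  · simp only [padB, fieldOf, entry, Matrix.cons_val_zero] at h
    simp [code, h, residueColour]

/-- The bits of one field determine its entry. -/
lemma code_separates (t t' : Tup) (f : Fin 3)
    (h : ∀ a, code t (Sum.inl (f, a)) = code t' (Sum.inl (f, a))) : entry t f = entry t' f := by
  by_contra hne
  set w := entry t f
  set w' := entry t' f
  -- a pair of classes avoiding the residue of `w`
  obtain ⟨k, hk1, hk2⟩ : ∃ k : Fin 2, colRes w ≠ ((1 + 2 * k.1 : ℕ) : ZMod 5) ∧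
      colRes w ≠ ((2 + 2 * k.1 : ℕ) : ZMod 5) := by
    generalize colRes w = c
    revert c
    decide
  have hA := h (w, k, 0)
  have hB := h (w', k, 0)
  simp only [code, show entry t f = w from rfl, show entry t' f = w' from rfl, if_neg hk1,
    if_neg hk2, decide_true, decide_eq_true_eq] at hA hB
  by_cases h1 : colRes w' = ((1 + 2 * k.1 : ℕ) : ZMod 5)
  · rw [if_pos h1] at hB
    exact hne (of_decide_eq_true hB)
  · by_cases h2 : colRes w' = ((2 + 2 * k.1 : ℕ) : ZMod 5)
    · rw [if_neg h1, if_pos h2] at hA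
      exact Bool.noConfusion hA
    · rw [if_neg h1, if_neg h2] at hA
      exact hne (of_decide_eq_true hA.symm).symm

/-- Changing one bit of a code word never gives a code word. -/
lemma code_flip (t t' : Tup) (l : Bit) : code t' ≠ Function.update (code t) l (!code t l) := by
  intro h
  rcases l with ⟨f, v, k, c⟩ | u
  · have h1 := congrFun h (Sum.inl (f, v, k, c))
    have h2 := congrFun h (Sum.inl (f, v, k, c + 1))
    rw [Function.update_self] at h1
    rw [Function.update_of_ne (by fin_cases c <;> simp)] at h2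
    have e1 : code t' (Sum.inl (f, v, k, c)) = code t' (Sum.inl (f, v, k, c + 1)) := rfl
    have e2 : code t (Sum.inl (f, v, k, c)) = code t (Sum.inl (f, v, k, c + 1)) := rfl
    rw [e1, h2, ← e2] at h1
    exact Bool.not_ne_self _ h1.symm
  · have hf : ∀ f, entry t' f = entry t f := fun f => code_separates _ _ f fun a => by
      rw [h, Function.update_of_ne (by simp)]
    have h1 := congrFun h (Sum.inr u)
    rw [Function.update_self] at h1
    have e : t'.1 = t.1 := by simpa [entry] using hf 0
    simp only [code, e] at h1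
    exact Bool.not_ne_self _ h1.symm

/-- A rapidly growing sequence of primes. -/
noncomputable def fastPrime : ℕ → ℕ
  | 0 => 7
  | n + 1 => (Nat.exists_infinite_primes (20 * (fastPrime n * fastPrime n) + 20)).choose

lemma fastPrime_succ (n : ℕ) :
    20 * (fastPrime n * fastPrime n) + 20 ≤ fastPrime (n + 1) ∧ (fastPrime (n + 1)).Prime := by
  rw [fastPrime]
  exact (Nat.exists_infinite_primes _).choose_spec

lemma fastPrime_prime : ∀ n, (fastPrime n).Prime
  | 0 => by rw [fastPrime]; norm_num
  | n + 1 => (fastPrime_succ n).2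

lemma fastPrime_strictMono : StrictMono fastPrime := strictMono_nat_of_lt_succ fun n => by
  have := (fastPrime_succ n).1
  have := Nat.le_mul_self (fastPrime n)
  omega

lemma seven_le_fastPrime (n : ℕ) : 7 ≤ fastPrime n := by
  have := fastPrime_strictMono.monotone (Nat.zero_le n)
  rwa [show fastPrime 0 = 7 by rw [fastPrime]] at this

/-- The position of a bit's primes in the sequence. -/
noncomputable def primeIndex (b : Bit) : ℕ := 3 * (Fintype.equivFin Bit b).val

/-- The moduli of the bits. -/
noncomputable def bitModuli : Moduli Bit where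
  p b := fastPrime (primeIndex b + 2)
  q b := fastPrime (primeIndex b + 1)
  r b := fastPrime (primeIndex b)
  hp _ := fastPrime_prime _
  hq _ := fastPrime_prime _
  hr _ := fastPrime_prime _
  hrq _ := fastPrime_strictMono (Nat.lt_succ_self _)
  hr3 b := lt_of_lt_of_le (by norm_num) (seven_le_fastPrime _)
  hbig b := by
    refine le_trans ?_ (fastPrime_succ (primeIndex b + 1)).1
    have := fastPrime_strictMono.monotone (Nat.le_succ (primeIndex b))
    gcongr

lemma fastPrime_index_injective {b b' : Bit} {i j : ℕ} (hi : i < 3) (hj : j < 3)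
    (h : fastPrime (primeIndex b + i) = fastPrime (primeIndex b' + j)) : b = b' ∧ i = j := by
  have h' := fastPrime_strictMono.injective h
  simp only [primeIndex] at h'
  have hb : (Fintype.equivFin Bit b).val = (Fintype.equivFin Bit b').val := by omega
  exact ⟨(Fintype.equivFin Bit).injective (Fin.ext hb), by omega⟩

/-- The slots of the fibre group. -/
abbrev Slot := Unit ⊕ (Bit × Fin 3)

/-- The modulus of a slot. -/
noncomputable def slotModulus : Slot → ℕ
  | Sum.inl _ => 25
  | Sum.inr (b, i) =>
      ![bitModuli.p b, bitModuli.q b ^ 2, bitModuli.r b ^ 2] i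

lemma slotModulus_coprime : Pairwise (Function.onFun Nat.Coprime slotModulus) := by
  have h25 : ∀ n, Nat.Coprime 25 (fastPrime n) := fun n => by
    rw [Nat.coprime_comm, (fastPrime_prime n).coprime_iff_not_dvd]
    intro h
    have h' : fastPrime n ∣ 5 ^ 2 := h
    have := Nat.le_of_dvd (by norm_num) ((fastPrime_prime n).dvd_of_dvd_pow h')
    have := seven_le_fastPrime n
    omega
  have hpow : ∀ b i, ∃ k e : ℕ, k < 3 ∧ k = 2 - i.val ∧
      slotModulus (Sum.inr (b, i)) = fastPrime (primeIndex b + k) ^ e := by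
    intro b i
    fin_cases i
    · exact ⟨2, 1, by simp [slotModulus, bitModuli]⟩
    · exact ⟨1, 2, by simp [slotModulus, bitModuli]⟩
    · exact ⟨0, 2, by simp [slotModulus, bitModuli]⟩
  intro s s' hne
  rcases s with _ | ⟨b, i⟩ <;> rcases s' with _ | ⟨b', i'⟩ <;> simp only [Function.onFun]
  · exact absurd rfl hne
  · obtain ⟨k, e, -, -, h⟩ := hpow b' i'
    rw [h]; exact (h25 _).pow_right e
  · obtain ⟨k, e, -, -, h⟩ := hpow b i
    rw [h]; exact (h25 _).symm.pow_left e
  · obtain ⟨k, e, hk, hki, h⟩ := hpow b i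
    obtain ⟨k', e', hk', hki', h'⟩ := hpow b' i'
    rw [h, h']
    refine Nat.Coprime.pow _ _ ((Nat.coprime_primes (fastPrime_prime _) (fastPrime_prime _)).2 ?_)
    intro e0
    obtain ⟨rfl, hkk⟩ := fastPrime_index_injective hk hk' e0
    have := i.2; have := i'.2
    exact hne (by rw [show i = i' from Fin.ext (by omega)])

lemma intCast_fib_surjective_aux {C : Type} [Fintype C] (n₀ : ℕ) (A₁ A₂ A₃ : C → ℕ)
    (m : Unit ⊕ (C × Fin 3) → ℕ) (hm₀ : m (Sum.inl ()) = n₀)
    (h₁ : ∀ b, m (Sum.inr (b, 0)) = A₁ b) (h₂ : ∀ b, m (Sum.inr (b, 1)) = A₂ b)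
    (h₃ : ∀ b, m (Sum.inr (b, 2)) = A₃ b) (hco : Pairwise (Function.onFun Nat.Coprime m)) :
    Function.Surjective (Int.cast : ℤ → ZMod n₀ × (∀ b, ZMod (A₁ b) × (ZMod (A₂ b) × ZMod (A₃ b)))) := by
  classical
  subst hm₀
  obtain rfl : A₁ = fun b => m (Sum.inr (b, 0)) := funext fun b => (h₁ b).symm
  obtain rfl : A₂ = fun b => m (Sum.inr (b, 1)) := funext fun b => (h₂ b).symm
  obtain rfl : A₃ = fun b => m (Sum.inr (b, 2)) := funext fun b => (h₃ b).symm
  intro g
  let t : ∀ s, ZMod (m s) := fun s => match s with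
    | Sum.inl () => g.1
    | Sum.inr (b, ⟨0, _⟩) => (g.2 b).1
    | Sum.inr (b, ⟨1, _⟩) => (g.2 b).2.1
    | Sum.inr (b, ⟨2, _⟩) => (g.2 b).2.2
  let φ := ZMod.prodEquivPi m hco
  obtain ⟨k, hk⟩ := ZMod.intCast_surjective (φ.symm t)
  have hkt : (k : ∀ s, ZMod (m s)) = t := by
    rw [← map_intCast φ k, hk, φ.apply_symm_apply]
  refine ⟨k, Prod.ext ?_ (funext fun b => ?_)⟩
  · exact congrFun hkt (Sum.inl ())
  · exact Prod.ext (congrFun hkt (Sum.inr (b, 0)))
      (Prod.ext (congrFun hkt (Sum.inr (b, 1))) (congrFun hkt (Sum.inr (b, 2))))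

lemma intCast_fib_surjective : Function.Surjective (Int.cast : ℤ → Fib bitModuli) :=
  intCast_fib_surjective_aux 25 bitModuli.p (fun b => bitModuli.q b ^ 2)
    (fun b => bitModuli.r b ^ 2) slotModulus rfl (fun _ => rfl) (fun _ => rfl) (fun _ => rfl)
    slotModulus_coprime

end Vale.Agent.P043.Three
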