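import Vale.Agent.P043.Combine

/-!
# Three dimensions: definitions

The fibre group is cyclic. Each component `b` carries three moduli `p b`, `q b ^ 2`,
`r b ^ 2`; a fibre of a translation set is the graph, over the high digits in the
last two, of one function into `ZMod (p b)` for each component.
-/

namespace Vale.Agent.P043.Three

/-- The moduli of the components. -/
structure Moduli (B : Type) where
  p : B → ℕ
  q : B → ℕ
  r : B → ℕ
  hp : ∀ b, (p b).Prime
  hq : ∀ b, (q b).Prime
  hr : ∀ b, (r b).Prime
  hrq : ∀ b, r b < q b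
  hr3 : ∀ b, 5 < r b
  hbig : ∀ b, 20 * (q b * r b) + 20 ≤ p b

variable {B : Type} (P : Moduli B)

instance (b : B) : Fact (P.p b).Prime := ⟨P.hp b⟩
instance (b : B) : Fact (P.q b).Prime := ⟨P.hq b⟩
instance (b : B) : Fact (P.r b).Prime := ⟨P.hr b⟩
instance (b : B) : NeZero (P.p b) := ⟨(P.hp b).ne_zero⟩
instance (b : B) : NeZero (P.q b) := ⟨(P.hq b).ne_zero⟩
instance (b : B) : NeZero (P.r b) := ⟨(P.hr b).ne_zero⟩

/-- The group of one component. -/
abbrev Comp (b : B) := ZMod (P.p b) × (ZMod (P.q b ^ 2) × ZMod (P.r b ^ 2))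

/-- The fibre group. -/
abbrev Fib := ZMod 25 × (∀ b, Comp P b)

/-- The local index of one component. -/
abbrev Low (b : B) := ZMod (P.p b) × (Fin (P.q b) × Fin (P.r b))

/-- The index of every equation. -/
abbrev Idx := ZMod 25 × (∀ b, Low P b)

/-- Sites times fibre. -/
abbrev Pt := (ℤ × ℤ) × Fib P

/-- The low digit. -/
def lo (n : ℕ) [NeZero n] (z : ZMod (n ^ 2)) : Fin n :=
  ⟨z.val % n, Nat.mod_lt _ (Nat.pos_of_ne_zero (NeZero.ne n))⟩

/-- The high digit. -/
def hi (n : ℕ) (z : ZMod (n ^ 2)) : ZMod n := ((z.val / n : ℕ) : ZMod n)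

/-- The element with the given high digit and low digit zero. -/
def hiE (n : ℕ) (k : ZMod n) : ZMod (n ^ 2) := ((n * k.val : ℕ) : ZMod (n ^ 2))

/-- The element with the given low digit and high digit zero. -/
def loE (n : ℕ) (a : Fin n) : ZMod (n ^ 2) := ((a.1 : ℕ) : ZMod (n ^ 2))

/-- The point of the standard box with the given index. -/
def emb (s : Idx P) : Fib P :=
  (s.1, fun b => ((s.2 b).1, (loE _ (s.2 b).2.1, loE _ (s.2 b).2.2)))

/-- A fibre: an offset, low digits, and one function for each component. -/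
structure Frame where
  five : ZMod 25
  low : ∀ b, Fin (P.q b) × Fin (P.r b)
  phi : ∀ b, ZMod (P.q b) → ZMod (P.r b) → ZMod (P.p b)

variable {P}

/-- The set of points of a frame. -/
def Frame.carrier (F : Frame P) : Set (Fib P) :=
  {z | z.1 = F.five ∧ ∀ b, lo _ (z.2 b).2.1 = (F.low b).1 ∧ lo _ (z.2 b).2.2 = (F.low b).2 ∧
    (z.2 b).1 = F.phi b (hi _ (z.2 b).2.1) (hi _ (z.2 b).2.2)}

/-- The function of component `b` ignores its second variable. -/
def Frame.Alpha (F : Frame P) (b : B) : Prop := ∀ K M M', F.phi b K M = F.phi b K M'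

/-- The function of component `b` ignores its first variable. -/
def Frame.Beta (F : Frame P) (b : B) : Prop := ∀ K K' M, F.phi b K M = F.phi b K' M

/-- The set described by a field of frames. -/
def setOf' (F : ℤ × ℤ → Frame P) : Set (Pt P) := {z | z.2 ∈ (F z.1).carrier}

/-- A family inside one fibre. -/
def inFib (e : Idx P → Fib P) (s : Idx P) : Pt P := (0, e s)

/-- The index of a piece of the window of component `b`. -/
abbrev Own (P : Moduli B) (b : B) := ZMod 25 × Low P b

open Classical in
/-- The window family of component `b`: piece `w` sits at site offset `site w`, with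
shift `shift w` in the offset slot and high-digit shifts `lab w`. -/
noncomputable def windowMap (b : B) (site : Own P b → ℤ × ℤ) (shift : Own P b → ZMod 25)
    (lab : Own P b → Fin (P.q b) × Fin (P.r b)) (s : Idx P) : Pt P :=
  let w : Own P b := (s.1, s.2 b)
  (site w, (shift w, Function.update (emb P s).2 b
    (0, (hiE _ ((lab w).1.1 : ZMod (P.q b)), hiE _ ((lab w).2.1 : ZMod (P.r b))))))

end Vale.Agent.P043.Three
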