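import Vale.Agent.P043.Three.Defs

/-!
# Digits in `ZMod (n ^ 2)`
-/

namespace Vale.Agent.P043.Three

variable {n : ℕ} [NeZero n]

lemma digits_decomp (z : ZMod (n ^ 2)) : loE n (lo n z) + hiE n (hi n z) = z := by
  haveI : NeZero (n ^ 2) := ⟨pow_ne_zero _ (NeZero.ne n)⟩
  have h1 : z.val / n < n := by
    rw [Nat.div_lt_iff_lt_mul (Nat.pos_of_ne_zero (NeZero.ne n)), ← sq]
    exact z.val_lt
  simp only [loE, hiE, lo, hi, ZMod.val_natCast, Nat.mod_eq_of_lt h1]
  rw [← Nat.cast_add, Nat.mod_add_div, ZMod.natCast_zmod_val]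

lemma lo_loE_add_hiE (a : Fin n) (k : ZMod n) : lo n (loE n a + hiE n k) = a := by
  apply Fin.ext
  have h1 := k.val_lt
  have h2 := a.2
  have hlt : a.1 + n * k.val < n ^ 2 := by nlinarith
  simp only [loE, hiE, lo, ← Nat.cast_add, ZMod.val_natCast, Nat.mod_eq_of_lt hlt,
    Nat.add_mul_mod_self_left, Nat.mod_eq_of_lt h2]

lemma hi_loE_add_hiE (a : Fin n) (k : ZMod n) : hi n (loE n a + hiE n k) = k := by
  have h1 := k.val_lt
  have h2 := a.2
  have hlt : a.1 + n * k.val < n ^ 2 := by nlinarith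
  simp only [loE, hiE, hi, ← Nat.cast_add, ZMod.val_natCast, Nat.mod_eq_of_lt hlt,
    Nat.add_mul_div_left _ _ (Nat.pos_of_ne_zero (NeZero.ne n)), Nat.div_eq_of_lt h2, zero_add,
    ZMod.natCast_zmod_val]

lemma hiE_add (k l : ZMod n) : hiE n (k + l) = hiE n k + hiE n l := by
  simp only [hiE, ← Nat.cast_add]
  rw [ZMod.natCast_eq_natCast_iff, sq, ← mul_add, ZMod.val_add]
  exact Nat.ModEq.mul_left' n (Nat.mod_modEq _ n)

@[simp] lemma hiE_zero : hiE n (0 : ZMod n) = 0 := by simp [hiE]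

@[simp] lemma loE_zero : loE n (0 : Fin n) = 0 := by simp [loE]

lemma hiE_sub (k l : ZMod n) : hiE n (k - l) = hiE n k - hiE n l := by
  rw [eq_sub_iff_add_eq, ← hiE_add, sub_add_cancel]

lemma hiE_neg (k : ZMod n) : hiE n (-k) = -hiE n k := by
  rw [← zero_sub k, hiE_sub, hiE_zero, zero_sub]

lemma lo_sub_hiE (z : ZMod (n ^ 2)) (k : ZMod n) : lo n (z - hiE n k) = lo n z := by
  conv_lhs => rw [← digits_decomp z, add_sub_assoc, ← hiE_sub, lo_loE_add_hiE]

lemma hi_sub_hiE (z : ZMod (n ^ 2)) (k : ZMod n) : hi n (z - hiE n k) = hi n z - k := by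
  conv_lhs => rw [← digits_decomp z, add_sub_assoc, ← hiE_sub, hi_loE_add_hiE]

lemma lo_add_hiE (z : ZMod (n ^ 2)) (k : ZMod n) : lo n (z + hiE n k) = lo n z := by
  have h := lo_sub_hiE z (-k)
  rwa [hiE_neg, sub_neg_eq_add] at h

lemma hi_add_hiE (z : ZMod (n ^ 2)) (k : ZMod n) : hi n (z + hiE n k) = hi n z + k := by
  have h := hi_sub_hiE z (-k)
  rwa [hiE_neg, sub_neg_eq_add, sub_neg_eq_add] at h

@[simp] lemma lo_hiE (k : ZMod n) : lo n (hiE n k) = 0 := by
  simpa using lo_loE_add_hiE (0 : Fin n) k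

@[simp] lemma hi_hiE (k : ZMod n) : hi n (hiE n k) = k := by
  simpa using hi_loE_add_hiE (0 : Fin n) k

/-- The low part subtracted from `z` so that the low digit becomes `o` is unique. -/
lemma existsUnique_lo_sub (z : ZMod (n ^ 2)) (o : Fin n) :
    ∃! a : Fin n, lo n (z - loE n a) = o := by
  let g : Fin n → Fin n := fun a => lo n (z - loE n a)
  have hg : Function.Injective g := by
    intro a a' h
    have e : z - loE n a - hiE n (hi n (z - loE n a))
        = z - loE n a' - hiE n (hi n (z - loE n a')) := by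
      have e1 := digits_decomp (z - loE n a)
      have e2 := digits_decomp (z - loE n a')
      simp only [g] at h
      rw [h] at e1
      linear_combination e2 - e1
    have e' : loE n a + hiE n (hi n (z - loE n a))
        = loE n a' + hiE n (hi n (z - loE n a')) := by linear_combination -e
    have := congrArg (lo n) e'
    rwa [lo_loE_add_hiE, lo_loE_add_hiE] at this
  exact (Finite.injective_iff_bijective.1 hg).existsUnique o

end Vale.Agent.P043.Three
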