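import Vale.Agent.P043.Three.Digits

/-!
# Equations forcing frames, and clauses
-/

namespace Vale.Agent.P043.Three

set_option linter.unusedSectionVars false
set_option linter.unusedSimpArgs false

/-! ### Digits -/

section Digits

variable {n : ℕ} [NeZero n]

/-- Reduction to the low digit. -/
def low₀ (n : ℕ) : ZMod (n ^ 2) →+* ZMod n := ZMod.castHom (dvd_pow_self n two_ne_zero) (ZMod n)

lemma low₀_natCast (m : ℕ) : low₀ n (m : ZMod (n ^ 2)) = (m : ZMod n) := map_natCast _ m

lemma low₀_loE (a : Fin n) : low₀ n (loE n a) = (a.1 : ZMod n) := low₀_natCast _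

lemma low₀_hiE (k : ZMod n) : low₀ n (hiE n k) = 0 := by
  rw [hiE, low₀_natCast]; simp

lemma lo_eq_iff (z : ZMod (n ^ 2)) (a : Fin n) : lo n z = a ↔ low₀ n z = (a.1 : ZMod n) := by
  have h : low₀ n z = ((z.val % n : ℕ) : ZMod n) := by
    conv_lhs => rw [← ZMod.natCast_zmod_val z]
    rw [low₀_natCast, ZMod.natCast_mod]
  rw [h, ZMod.natCast_eq_natCast_iff', Nat.mod_mod, Nat.mod_eq_of_lt a.2, Fin.ext_iff]
  rfl

lemma hi_loE (a : Fin n) : hi n (loE n a) = 0 := by
  simpa [hiE_zero] using hi_loE_add_hiE a (0 : ZMod n)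

lemma eq_hiE_of_low₀ {z : ZMod (n ^ 2)} (h : low₀ n z = 0) : hiE n (hi n z) = z := by
  have h0 : lo n z = ⟨0, Nat.pos_of_ne_zero (NeZero.ne n)⟩ := by rw [lo_eq_iff, h]; simp
  conv_rhs => rw [← digits_decomp z, h0]
  simp [loE]

lemma natCast_fin_inj {a b : Fin n} (h : (a.1 : ZMod n) = (b.1 : ZMod n)) : a = b := by
  rw [ZMod.natCast_eq_natCast_iff', Nat.mod_eq_of_lt a.2, Nat.mod_eq_of_lt b.2] at h
  exact Fin.ext h

lemma exists_lo (z : ZMod (n ^ 2)) (L : Fin n) : ∃! a : Fin n, lo n (z - loE n a) = L := by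
  refine ⟨⟨(low₀ n z - (L.1 : ZMod n)).val, ZMod.val_lt _⟩, ?_, fun a ha => ?_⟩
  · simp only [lo_eq_iff, map_sub, low₀_loE, ZMod.natCast_zmod_val, sub_sub_cancel]
  · beta_reduce at ha
    rw [lo_eq_iff, map_sub, low₀_loE] at ha
    apply natCast_fin_inj
    simp only [ZMod.natCast_zmod_val]
    linear_combination -ha

/-- The digit reaching a given low digit. -/
noncomputable def loSol (z : ZMod (n ^ 2)) (L : Fin n) : Fin n := (exists_lo z L).choose

lemma loSol_spec (z : ZMod (n ^ 2)) (L : Fin n) : lo n (z - loE n (loSol z L)) = L :=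
  (exists_lo z L).choose_spec.1

lemma eq_loSol {z : ZMod (n ^ 2)} {L a : Fin n} (h : lo n (z - loE n a) = L) : a = loSol z L :=
  (exists_lo z L).choose_spec.2 a h

lemma loSol_sub_hiE (z : ZMod (n ^ 2)) (k : ZMod n) (L : Fin n) :
    loSol (z - hiE n k) L = loSol z L := by
  refine eq_loSol ?_
  have h := loSol_spec (z - hiE n k) L
  rw [lo_eq_iff, map_sub, map_sub, low₀_hiE, sub_zero] at h
  rw [lo_eq_iff, map_sub]
  exact h

lemma loSol_eq_zero {z : ZMod (n ^ 2)} {L : Fin n} (h : low₀ n z = (L.1 : ZMod n)) :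
    loSol z L = 0 := by
  symm
  refine eq_loSol ?_
  rw [lo_eq_iff, map_sub, low₀_loE, h]; simp

lemma eq_of_invariant {α : Type*} {f : ZMod n → α} (h : ∀ x, f (x + 1) = f x) (x y : ZMod n) :
    f x = f y := by
  have key : ∀ m : ℕ, f (x + m) = f x := by
    intro m
    induction m with
    | zero => simp
    | succ m ih => rw [Nat.cast_succ, ← add_assoc, h, ih]
  have := key (y - x).val
  rw [ZMod.natCast_zmod_val, add_sub_cancel] at this
  exact this.symm

end Digits

variable {B : Type} [Fintype B] [DecidableEq B] (P : Moduli B)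

/-! ### The vertical family -/

variable {P}

lemma emb_zero : emb P 0 = 0 := by
  refine Prod.ext rfl (funext fun b => ?_)
  exact Prod.ext rfl (Prod.ext loE_zero loE_zero)

/-- The index of one component whose piece reaches `c`. -/
noncomputable def Frame.solB (F : Frame P) (b : B) (c : Comp P b) : Low P b :=
  let a := loSol c.2.1 (F.low b).1
  let a' := loSol c.2.2 (F.low b).2
  (c.1 - F.phi b (hi _ (c.2.1 - loE _ a)) (hi _ (c.2.2 - loE _ a')), (a, a'))

/-- The index of the vertical piece reaching `z`. -/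
noncomputable def Frame.sol (F : Frame P) (z : Fib P) : Idx P :=
  (z.1 - F.five, fun b => F.solB b (z.2 b))

lemma Frame.mem_iff (F : Frame P) (z : Fib P) (s : Idx P) :
    z - emb P s ∈ F.carrier ↔ s = F.sol z := by
  constructor
  · rintro ⟨h1, h2⟩
    refine Prod.ext ?_ (funext fun b => ?_)
    · simp only [emb, Prod.fst_sub] at h1
      simp only [Frame.sol]
      linear_combination -h1
    · obtain ⟨hq, hr, hp⟩ := h2 b
      simp only [emb, Prod.snd_sub, Pi.sub_apply, Prod.fst_sub] at hq hr hp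
      have eq := eq_loSol hq
      have er := eq_loSol hr
      simp only [Frame.sol, Frame.solB]
      refine Prod.ext ?_ (Prod.ext eq er)
      simp only [← eq, ← er]
      linear_combination -hp
  · rintro rfl
    refine ⟨by simp [Frame.sol, emb], fun b => ?_⟩
    simp only [Frame.sol, Frame.solB, emb, Prod.snd_sub, Pi.sub_apply, Prod.fst_sub]
    exact ⟨loSol_spec _ _, loSol_spec _ _, by ring⟩

lemma Frame.tiles_emb (F : Frame P) : TilesBy F.carrier (emb P) := fun z =>
  ⟨F.sol z, (F.mem_iff z _).2 rfl, fun s hs => (F.mem_iff z s).1 hs⟩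

/-- For a finite group, disjointness of a shifted vertical family gives a tiling. -/
lemma Frame.tiles_of_unique (F : Frame P) (δ : Idx P → Fib P)
    (h : ∀ z s t, s = F.sol (z - δ s) → t = F.sol (z - δ t) → s = t) :
    TilesBy F.carrier (fun s => emb P s + δ s) := by
  have key : ∀ z s, z - (emb P s + δ s) ∈ F.carrier ↔ s = F.sol (z - δ s) := fun z s => by
    rw [← F.mem_iff, sub_sub, add_comm]
  let f₀ : F.carrier × Idx P → Fib P := fun p => p.1.1 + emb P p.2
  let f : F.carrier × Idx P → Fib P := fun p => p.1.1 + (emb P p.2 + δ p.2)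
  have hbij : Function.Bijective f₀ := by
    rw [Function.bijective_iff_existsUnique]
    intro z
    obtain ⟨s, hs, hu⟩ := F.tiles_emb z
    refine ⟨(⟨z - emb P s, hs⟩, s), by simp [f₀], fun p hp => ?_⟩
    have e : z - emb P p.2 = p.1.1 := by rw [← hp]; simp [f₀]
    have hps : p.2 = s := hu _ (by show _ ∈ F.carrier; rw [e]; exact p.1.2)
    refine Prod.ext (Subtype.ext ?_) hps
    show p.1.1 = z - emb P s
    rw [← hps, e]
  have hinj : Function.Injective f := by
    intro p q hpq
    have hs : p.2 = q.2 := by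
      refine h (f p) _ _ ((key _ _).1 (by simp [f])) ((key _ _).1 ?_)
      rw [hpq]; simp [f]
    refine Prod.ext (Subtype.ext ?_) hs
    simpa [f, hs] using hpq
  have : Finite (F.carrier × Idx P) := Finite.of_injective f hinj
  have hsurj : Function.Surjective f :=
    Function.Injective.surjective_of_finite (Equiv.ofBijective f₀ hbij) hinj
  intro z
  obtain ⟨p, hp⟩ := hsurj z
  refine ⟨p.2, by simp [← hp, f], fun t ht => h z t p.2 ((key z t).1 ht) ((key z _).1 ?_)⟩
  simp [← hp, f]

open Classical in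
/-- The vertical family shifted by `w` on the pieces satisfying `c`. -/
noncomputable def tweak (c : Idx P → Prop) (w : Fib P) (s : Idx P) : Fib P :=
  emb P s + if c s then w else 0

lemma Frame.tiles_tweak (F : Frame P) (c : Idx P → Prop) (w : Fib P)
    (h : ∀ z, c (F.sol (z - w)) ↔ c (F.sol z)) : TilesBy F.carrier (tweak c w) := by
  classical
  refine F.tiles_of_unique _ fun z s t hs ht => ?_
  have hc : ∀ s, s = F.sol (z - if c s then w else 0) → (c s ↔ c (F.sol z)) := by
    intro s hs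
    by_cases hcs : c s
    · rw [if_pos hcs] at hs; rw [hs, h z]
    · rw [if_neg hcs, sub_zero] at hs; rw [hs]
  rw [hs, ht]
  by_cases h0 : c (F.sol z)
  · rw [if_pos ((hc s hs).2 h0), if_pos ((hc t ht).2 h0)]
  · rw [if_neg (mt (hc s hs).1 h0), if_neg (mt (hc t ht).1 h0)]

variable (P)

/-- The four kinds of families. -/
abbrev Kind := Unit ⊕ (Fib P ⊕ ((B × Fib P) ⊕ ((B × Fib P) ⊕ (B × Fib P))))

/-- The families forcing frames. -/
noncomputable def frameSystem : Kind P → Idx P → Fib P :=
  Sum.elim (fun _ => emb P) <|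
  Sum.elim (fun w => tweak (fun s => s.1 = 0) (0, w.2)) <|
  Sum.elim (fun q => tweak (fun s => (s.2 q.1).2.1 = 0)
    (q.2.1, Function.update q.2.2 q.1
      ((q.2.2 q.1).1, (hiE _ (hi _ (q.2.2 q.1).2.1), (q.2.2 q.1).2.2)))) <|
  Sum.elim (fun q => tweak (fun s => (s.2 q.1).2.2 = 0)
    (q.2.1, Function.update q.2.2 q.1
      ((q.2.2 q.1).1, ((q.2.2 q.1).2.1, hiE _ (hi _ (q.2.2 q.1).2.2))))) <|
  fun q => tweak (fun s => (s.2 q.1).1 = 0) (q.2.1, Function.update q.2.2 q.1 0)

variable {P}

lemma frame_tiles (F : Frame P) : ∀ k, TilesBy F.carrier (frameSystem P k) := by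
  rintro (_ | w | q | q | q) <;> simp only [frameSystem, Sum.elim_inl, Sum.elim_inr]
  · exact F.tiles_emb
  · exact F.tiles_tweak _ _ fun z => by simp [Frame.sol]
  · refine F.tiles_tweak _ _ fun z => iff_of_eq (congrArg (· = 0) ?_)
    simp only [Frame.sol, Frame.solB, Prod.snd_sub, Pi.sub_apply, Function.update_self,
      Prod.fst_sub, loSol_sub_hiE]
  · refine F.tiles_tweak _ _ fun z => iff_of_eq (congrArg (· = 0) ?_)
    simp only [Frame.sol, Frame.solB, Prod.snd_sub, Pi.sub_apply, Function.update_self,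
      Prod.fst_sub, loSol_sub_hiE]
  · exact F.tiles_tweak _ _ fun z => by simp [Frame.sol]

/-- Two points whose difference passes the test of a shifted family. -/
lemma not_both {X : Set (Fib P)} {c : Idx P → Prop} {w x x' : Fib P} {s : Idx P}
    (hX : TilesBy X (tweak c w)) (hx : x ∈ X) (hx' : x' ∈ X) (h0 : c 0) (hs : ¬ c s)
    (hw : w = x + emb P s - x') : False := by
  classical
  have h1 : x + emb P s - tweak c w 0 ∈ X := by
    rw [show x + emb P s - tweak c w 0 = x' by
      rw [tweak, if_pos h0, emb_zero, zero_add, hw]; abel]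
    exact hx'
  have h2 : x + emb P s - tweak c w s ∈ X := by
    rw [tweak, if_neg hs, add_zero, add_sub_cancel_right]; exact hx
  exact hs ((hX _).unique h2 h1 ▸ h0)

lemma exists_frame_of_tiles {X : Set (Fib P)} (hX : ∀ k, TilesBy X (frameSystem P k)) :
    ∃ F : Frame P, X = F.carrier := by
  classical
  have hv : TilesBy X (emb P) := hX (Sum.inl ())
  have hA : ∀ x ∈ X, ∀ x' ∈ X, x.1 = x'.1 := by
    intro x hx x' hx'
    by_contra hne
    let s : Idx P := (x'.1 - x.1, 0)
    have := hX (Sum.inr (Sum.inl (x + emb P s - x')))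
    simp only [frameSystem, Sum.elim_inl, Sum.elim_inr] at this
    refine not_both this hx hx' (s := s) rfl (by simpa [s, sub_eq_zero] using Ne.symm hne) ?_
    exact Prod.ext (by simp [s, emb]) rfl
  have hQ : ∀ x ∈ X, ∀ x' ∈ X, ∀ b, lo _ (x.2 b).2.1 = lo _ (x'.2 b).2.1 := by
    intro x hx x' hx' b
    by_contra hne
    obtain ⟨a, ha, -⟩ := exists_lo (x'.2 b).2.1 (lo _ (x.2 b).2.1)
    rw [lo_eq_iff, map_sub, low₀_loE, ← low₀_loE (lo _ (x.2 b).2.1), low₀_loE] at ha
    have ha0 : a ≠ 0 := by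
      rintro rfl
      apply hne
      symm
      rw [lo_eq_iff]
      simpa using ha
    let s : Idx P := (0, Function.update 0 b (0, (a, 0)))
    have hwQ : low₀ _ ((x + emb P s - x').2 b).2.1 = 0 := by
      have hxlo := (lo_eq_iff (x.2 b).2.1 _).1 rfl
      simp only [s, emb, Prod.snd_sub, Prod.snd_add, Pi.sub_apply, Pi.add_apply, Prod.fst_sub,
        Prod.fst_add, Function.update_self, map_sub, map_add, low₀_loE]
      linear_combination hxlo - ha
    have := hX (Sum.inr (Sum.inr (Sum.inl (b, x + emb P s - x'))))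
    simp only [frameSystem, Sum.elim_inl, Sum.elim_inr] at this
    refine not_both this hx hx' (s := s) rfl (by simpa [s] using ha0) ?_
    refine Prod.ext rfl ?_
    simp only [eq_hiE_of_low₀ hwQ, Prod.mk.eta, Function.update_eq_self]
  have hR : ∀ x ∈ X, ∀ x' ∈ X, ∀ b, lo _ (x.2 b).2.2 = lo _ (x'.2 b).2.2 := by
    intro x hx x' hx' b
    by_contra hne
    obtain ⟨a, ha, -⟩ := exists_lo (x'.2 b).2.2 (lo _ (x.2 b).2.2)
    rw [lo_eq_iff, map_sub, low₀_loE] at ha
    have ha0 : a ≠ 0 := by
      rintro rfl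
      apply hne
      symm
      rw [lo_eq_iff]
      simpa using ha
    let s : Idx P := (0, Function.update 0 b (0, (0, a)))
    have hwR : low₀ _ ((x + emb P s - x').2 b).2.2 = 0 := by
      have hxlo := (lo_eq_iff (x.2 b).2.2 _).1 rfl
      simp only [s, emb, Prod.snd_sub, Prod.snd_add, Pi.sub_apply, Pi.add_apply, Prod.fst_sub,
        Prod.fst_add, Function.update_self, map_sub, map_add, low₀_loE]
      linear_combination hxlo - ha
    have := hX (Sum.inr (Sum.inr (Sum.inr (Sum.inl (b, x + emb P s - x')))))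
    simp only [frameSystem, Sum.elim_inl, Sum.elim_inr] at this
    refine not_both this hx hx' (s := s) rfl (by simpa [s] using ha0) ?_
    refine Prod.ext rfl ?_
    simp only [eq_hiE_of_low₀ hwR, Prod.mk.eta, Function.update_eq_self]
  have hC : ∀ x ∈ X, ∀ x' ∈ X, ∀ b, hi _ (x.2 b).2.1 = hi _ (x'.2 b).2.1 →
      hi _ (x.2 b).2.2 = hi _ (x'.2 b).2.2 → (x.2 b).1 = (x'.2 b).1 := by
    intro x hx x' hx' b hq hr
    by_contra hne
    have eq : (x.2 b).2.1 = (x'.2 b).2.1 := by
      rw [← digits_decomp (x.2 b).2.1, ← digits_decomp (x'.2 b).2.1, hq, hQ x hx x' hx' b]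
    have er : (x.2 b).2.2 = (x'.2 b).2.2 := by
      rw [← digits_decomp (x.2 b).2.2, ← digits_decomp (x'.2 b).2.2, hr, hR x hx x' hx' b]
    let s : Idx P := (0, Function.update 0 b ((x'.2 b).1 - (x.2 b).1, (0, 0)))
    have hw : (x + emb P s - x').2 b = 0 := by
      simp [s, emb, eq, er, loE_zero, Prod.ext_iff]
    have := hX (Sum.inr (Sum.inr (Sum.inr (Sum.inr (b, x + emb P s - x')))))
    simp only [frameSystem, Sum.elim_inl, Sum.elim_inr] at this
    refine not_both this hx hx' (s := s) rfl (by simpa [s, sub_eq_zero] using Ne.symm hne) ?_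
    refine Prod.ext rfl ?_
    simp only [← hw, Function.update_eq_self]
  obtain ⟨s₀, hs₀, -⟩ := hv 0
  generalize (0 : Fib P) - emb P s₀ = x₀ at hs₀
  have hex : ∀ (K : ∀ b, ZMod (P.q b)) (M : ∀ b, ZMod (P.r b)), ∃ x ∈ X,
      ∀ b, hi _ (x.2 b).2.1 = K b ∧ hi _ (x.2 b).2.2 = M b := by
    intro K M
    let z : Fib P := (x₀.1, fun b => (0, (loE _ (lo _ (x₀.2 b).2.1) + hiE _ (K b),
      loE _ (lo _ (x₀.2 b).2.2) + hiE _ (M b))))
    obtain ⟨s, hs, -⟩ := hv z
    refine ⟨_, hs, fun b => ?_⟩
    have h1 := hQ _ hs _ hs₀ b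
    have h2 := hR _ hs _ hs₀ b
    simp only [z, emb, Prod.snd_sub, Pi.sub_apply, Prod.fst_sub] at h1 h2 ⊢
    have e1 : (s.2 b).2.1 = 0 := by
      refine (exists_lo _ _).unique h1 ?_
      rw [loE_zero, sub_zero, lo_loE_add_hiE]
    have e2 : (s.2 b).2.2 = 0 := by
      refine (exists_lo _ _).unique h2 ?_
      rw [loE_zero, sub_zero, lo_loE_add_hiE]
    rw [e1, e2, loE_zero, loE_zero, sub_zero, sub_zero, hi_loE_add_hiE, hi_loE_add_hiE]
    exact ⟨rfl, rfl⟩
  choose pt hpt hpt' using hex
  let F : Frame P :=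
    { five := x₀.1
      low := fun b => (lo _ (x₀.2 b).2.1, lo _ (x₀.2 b).2.2)
      phi := fun b K M => ((pt (Function.update 0 b K) (Function.update 0 b M)).2 b).1 }
  refine ⟨F, Set.Subset.antisymm (fun x hx => ?_) (fun z hz => ?_)⟩
  · refine ⟨hA x hx x₀ hs₀, fun b => ⟨hQ x hx x₀ hs₀ b, hR x hx x₀ hs₀ b, ?_⟩⟩
    refine hC x hx _ (hpt _ _) b ?_ ?_
    · rw [(hpt' _ _ b).1, Function.update_self]
    · rw [(hpt' _ _ b).2, Function.update_self]
  · obtain ⟨h1, h2⟩ := hz
    let K : ∀ b, ZMod (P.q b) := fun b => hi _ (z.2 b).2.1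
    let M : ∀ b, ZMod (P.r b) := fun b => hi _ (z.2 b).2.2
    convert hpt K M using 1
    refine Prod.ext (h1.trans (hA x₀ hs₀ _ (hpt K M))) (funext fun b => ?_)
    obtain ⟨hq, hr, hp⟩ := h2 b
    have hq' := hQ _ hs₀ _ (hpt K M) b
    have hr' := hR _ hs₀ _ (hpt K M) b
    refine Prod.ext (hp.trans (hC _ (hpt _ _) _ (hpt K M) b ?_ ?_)) (Prod.ext ?_ ?_)
    · rw [(hpt' _ _ b).1, (hpt' _ _ b).1, Function.update_self]
    · rw [(hpt' _ _ b).2, (hpt' _ _ b).2, Function.update_self]
    · rw [← digits_decomp (z.2 b).2.1, ← digits_decomp ((pt K M).2 b).2.1, (hpt' K M b).1, hq, ← hq']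
    · rw [← digits_decomp (z.2 b).2.2, ← digits_decomp ((pt K M).2 b).2.2, (hpt' K M b).2, hr, ← hr']

variable (P)

/-- Finitely many families inside a fibre whose common tilings are exactly the frames. -/
theorem exists_frame_system :
    ∃ (κ : Type) (_ : Fintype κ) (e : κ → Idx P → Fib P) (k₀ : κ), e k₀ = emb P ∧
      (∀ F : Frame P, ∀ k, TilesBy F.carrier (e k)) ∧
      ∀ X : Set (Fib P), (∀ k, TilesBy X (e k)) → ∃ F : Frame P, X = F.carrier := by
  exact ⟨Kind P, inferInstance, frameSystem P, Sum.inl (), rfl, frame_tiles,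
    fun X => exists_frame_of_tiles⟩

/-! ### Clauses -/

/-- A literal `(b, true)` says that component `b` is `Alpha`, `(b, false)` that it is `Beta`. -/
def Frame.Holds (F : Frame P) (l : B × Bool) : Prop :=
  if l.2 then F.Alpha l.1 else F.Beta l.1

/-- The high-digit step of a literal. -/
def litStep (v : Bool) (b : B) : Comp P b :=
  if v then (0, (0, hiE _ 1)) else (0, (hiE _ 1, 0))

open Classical in
/-- The shift of a piece of a clause family. -/
noncomputable def clauseShift {m : ℕ} [NeZero m] (L : Fin m → B × Bool) (s : Idx P) : Fib P :=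
  (0, fun c => if h : ∃ i, (L i).1 = c then
    (if (s.2 (L (h.choose + 1)).1).1 = 0 then litStep P (L h.choose).2 c else 0) else 0)

variable {P}

lemma clauseShift_apply {m : ℕ} [NeZero m] {L : Fin m → B × Bool}
    (hL : Function.Injective fun i => (L i).1) (s : Idx P) (i : Fin m) :
    (clauseShift P L s).2 (L i).1 =
      if (s.2 (L (i + 1)).1).1 = 0 then litStep P (L i).2 (L i).1 else 0 := by
  classical
  have h : ∃ i', (L i').1 = (L i).1 := ⟨i, rfl⟩
  simp only [clauseShift, dif_pos h]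
  have key : ∀ j : Fin m, j = i →
      (if (s.2 (L (j + 1)).1).1 = 0 then litStep P (L j).2 (L i).1 else 0) =
        if (s.2 (L (i + 1)).1).1 = 0 then litStep P (L i).2 (L i).1 else 0 := by
    rintro j rfl; rfl
  exact key _ (hL h.choose_spec)

/-- A holding literal makes the vertical solution blind to its step. -/
lemma Frame.solB_step (F : Frame P) (l : B × Bool) (h : F.Holds P l) (c : Comp P l.1) :
    (F.solB l.1 (c - litStep P l.2 l.1)).1 = (F.solB l.1 c).1 := by
  obtain ⟨b, v⟩ := l
  cases v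
  · simp only [Frame.Holds, Bool.false_eq_true, if_false] at h
    simp only [litStep, Bool.false_eq_true, if_false, Frame.solB, Prod.fst_sub, Prod.snd_sub,
      sub_zero]
    rw [loSol_sub_hiE, h _ (hi _ (c.2.1 - loE _ _))]
  · simp only [Frame.Holds, if_true] at h
    simp only [litStep, if_true, Frame.solB, Prod.fst_sub, Prod.snd_sub, sub_zero]
    rw [loSol_sub_hiE, h _ _ (hi _ (c.2.2 - loE _ _))]

lemma Frame.tiles_clause (F : Frame P) {m : ℕ} [NeZero m] {L : Fin m → B × Bool}
    (hL : Function.Injective fun i => (L i).1) (i₀ : Fin m) (h : F.Holds P (L i₀)) :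
    TilesBy F.carrier (fun s => emb P s + clauseShift P L s) := by
  classical
  refine F.tiles_of_unique _ fun z s t hs ht => ?_
  have hcomp : ∀ (s : Idx P), s = F.sol (z - clauseShift P L s) → ∀ c,
      s.2 c = F.solB c (z.2 c - (clauseShift P L s).2 c) := fun s hs c => by
    conv_lhs => rw [hs]
    rfl
  have h₀ : ∀ (s : Idx P), s = F.sol (z - clauseShift P L s) →
      (s.2 (L i₀).1).1 = (F.solB (L i₀).1 (z.2 (L i₀).1)).1 := fun s hs => by
    rw [hcomp s hs, clauseShift_apply hL]
    split_ifs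
    · exact F.solB_step _ h _
    · rw [sub_zero]
  have hchain : ∀ k : ℕ, (s.2 (L (i₀ - Fin.ofNat m k)).1).1 =
      (t.2 (L (i₀ - Fin.ofNat m k)).1).1 := by
    intro k
    induction k with
    | zero =>
      rw [show Fin.ofNat m 0 = 0 from by ext; simp, sub_zero, h₀ s hs, h₀ t ht]
    | succ k ih =>
      have e : i₀ - Fin.ofNat m (k + 1) + 1 = i₀ - Fin.ofNat m k := by
        have : Fin.ofNat m (k + 1) = Fin.ofNat m k + 1 := by ext; simp [Fin.val_add]
        rw [this]; abel
      rw [hcomp s hs, hcomp t ht, clauseShift_apply hL, clauseShift_apply hL, e, ih]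
  have hall : ∀ i, (s.2 (L i).1).1 = (t.2 (L i).1).1 := fun i => by
    have := hchain (i₀ - i).val
    rwa [show Fin.ofNat m (i₀ - i).val = i₀ - i from Fin.ext (Nat.mod_eq_of_lt (i₀ - i).2),
      sub_sub_cancel] at this
  have hshift : clauseShift P L s = clauseShift P L t := by
    refine Prod.ext rfl (funext fun c => ?_)
    by_cases hc : ∃ i, (L i).1 = c
    · simp only [clauseShift, dif_pos hc, hall]
    · simp only [clauseShift, dif_neg hc]
  rw [hs, ht, hshift]

lemma Frame.not_tiles_clause (F : Frame P) {m : ℕ} [NeZero m] {L : Fin m → B × Bool}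
    (hL : Function.Injective fun i => (L i).1) (h : ∀ i, ¬ F.Holds P (L i)) :
    ¬ TilesBy F.carrier (fun s => emb P s + clauseShift P L s) := by
  classical
  intro htile
  have hstep : ∀ i, ∃ c : Comp P (L i).1,
      (lo _ c.2.1 = (F.low (L i).1).1 ∧ lo _ c.2.2 = (F.low (L i).1).2 ∧
        c.1 = F.phi _ (hi _ c.2.1) (hi _ c.2.2)) ∧
      F.phi _ (hi _ (c + litStep P (L i).2 (L i).1).2.1)
        (hi _ (c + litStep P (L i).2 (L i).1).2.2) ≠ c.1 := by
    intro i
    specialize h i
    generalize L i = l at h ⊢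
    obtain ⟨b, v⟩ := l
    cases v
    · simp only [Frame.Holds, Bool.false_eq_true, if_false] at h
      have hn : ∃ K M, F.phi b (K + 1) M ≠ F.phi b K M := by
        by_contra hne
        simp only [not_exists, not_not] at hne
        exact h fun K K' M => eq_of_invariant (f := fun K => F.phi b K M) (fun K => hne K M) K K'
      obtain ⟨K, M, hKM⟩ := hn
      exact ⟨(F.phi b K M, (loE _ (F.low b).1 + hiE _ K, loE _ (F.low b).2 + hiE _ M)),
        ⟨lo_loE_add_hiE _ _, lo_loE_add_hiE _ _, by simp [hi_loE_add_hiE]⟩,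
        by simpa [litStep, hi_add_hiE, hi_loE_add_hiE, hi_loE] using hKM⟩
    · simp only [Frame.Holds, if_true] at h
      have hn : ∃ K M, F.phi b K (M + 1) ≠ F.phi b K M := by
        by_contra hne
        simp only [not_exists, not_not] at hne
        exact h fun K M M' => eq_of_invariant (f := fun M => F.phi b K M) (fun M => hne K M) M M'
      obtain ⟨K, M, hKM⟩ := hn
      exact ⟨(F.phi b K M, (loE _ (F.low b).1 + hiE _ K, loE _ (F.low b).2 + hiE _ M)),
        ⟨lo_loE_add_hiE _ _, lo_loE_add_hiE _ _, by simp [hi_loE_add_hiE]⟩,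
        by simpa [litStep, hi_add_hiE, hi_loE_add_hiE, hi_loE] using hKM⟩
  choose c hc hne using hstep
  -- a target reached twice
  let x : Fib P := (F.five, fun b => if hb : ∃ i, (L i).1 = b then hb.choose_spec ▸ c hb.choose
    else (F.phi b 0 0, (loE _ (F.low b).1, loE _ (F.low b).2)))
  have hxL : ∀ i, x.2 (L i).1 = c i := by
    intro i
    have hb : ∃ i', (L i').1 = (L i).1 := ⟨i, rfl⟩
    simp only [x, dif_pos hb]
    have e : hb.choose = i := hL hb.choose_spec
    generalize hb.choose = j, hb.choose_spec = hj at e ⊢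
    subst e; rfl
  have hxmem : x ∈ F.carrier := by
    refine ⟨rfl, fun b => ?_⟩
    by_cases hb : ∃ i, (L i).1 = b
    · obtain ⟨i, rfl⟩ := hb
      rw [hxL]; exact hc i
    · simp only [x, dif_neg hb]
      have l1 := lo_loE_add_hiE (F.low b).1 (0 : ZMod (P.q b))
      have l2 := lo_loE_add_hiE (F.low b).2 (0 : ZMod (P.r b))
      have h1 := hi_loE_add_hiE (F.low b).1 (0 : ZMod (P.q b))
      have h2 := hi_loE_add_hiE (F.low b).2 (0 : ZMod (P.r b))
      simp only [hiE_zero, add_zero] at l1 l2 h1 h2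
      rw [h1, h2]; exact ⟨l1, l2, rfl⟩
  let z : Fib P := x + clauseShift P L 0
  let t : Idx P := F.sol z
  have ht : ∀ i, (t.2 (L i).1).1 ≠ 0 := by
    intro i
    have hz : z.2 (L i).1 = c i + litStep P (L i).2 (L i).1 := by
      simp [z, hxL, clauseShift_apply hL]
    obtain ⟨hq, hr, hp⟩ := hc i
    have hl : ∀ (v : Bool) (b : B), low₀ _ (litStep P v b).2.1 = 0 ∧
        low₀ _ (litStep P v b).2.2 = 0 ∧ (litStep P v b).1 = 0 := by
      intro v b; cases v <;> simp [litStep, low₀_hiE]
    obtain ⟨hl1, hl2, hl3⟩ := hl (L i).2 (L i).1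
    simp only [t, Frame.sol, Frame.solB, hz]
    have e1 : loSol (c i + litStep P (L i).2 (L i).1).2.1 (F.low (L i).1).1 = 0 := by
      refine loSol_eq_zero ?_
      simp only [Prod.snd_add, Prod.fst_add, map_add, hl1, add_zero]
      exact (lo_eq_iff _ _).1 hq
    have e2 : loSol (c i + litStep P (L i).2 (L i).1).2.2 (F.low (L i).1).2 = 0 := by
      refine loSol_eq_zero ?_
      simp only [Prod.snd_add, map_add, hl2, add_zero]
      exact (lo_eq_iff _ _).1 hr
    rw [e1, e2, loE_zero, loE_zero, sub_zero, sub_zero, sub_ne_zero, Prod.fst_add, hl3, add_zero]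
    exact (hne i).symm
  have hshift : clauseShift P L t = 0 := by
    refine Prod.ext rfl (funext fun b => ?_)
    by_cases hb : ∃ i, (L i).1 = b
    · obtain ⟨i, rfl⟩ := hb
      rw [clauseShift_apply hL, if_neg (ht _)]; rfl
    · simp only [clauseShift, dif_neg hb]; rfl
  have h1 : z - (emb P 0 + clauseShift P L 0) ∈ F.carrier := by
    simpa [z, emb_zero] using hxmem
  have h2 : z - (emb P t + clauseShift P L t) ∈ F.carrier := by
    rw [hshift, add_zero]; exact (F.mem_iff z t).2 rfl
  have := (htile z).unique h2 h1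
  exact ht 0 (by rw [this]; rfl)

variable (P)

/-- A clause: a family that tiles a frame iff one of the listed literals holds. -/
theorem exists_clause (m : ℕ) [NeZero m] (L : Fin m → B × Bool)
    (hL : Function.Injective fun i => (L i).1) :
    ∃ e : Idx P → Fib P, ∀ F : Frame P, TilesBy F.carrier e ↔ ∃ i, F.Holds P (L i) := by
  refine ⟨fun s => emb P s + clauseShift P L s, fun F => ⟨fun h => ?_, ?_⟩⟩
  · by_contra hne
    exact F.not_tiles_clause hL (not_exists.1 hne) h
  · rintro ⟨i, hi⟩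
    exact F.tiles_clause hL i hi

/-- Frames are determined by their sets. -/
theorem Frame.carrier_injective : Function.Injective (Frame.carrier (P := P)) := by
  intro F G h
  have key : ∀ (K : ∀ b, ZMod (P.q b)) (M : ∀ b, ZMod (P.r b)), F.five = G.five ∧
      ∀ b, F.low b = G.low b ∧ F.phi b (K b) (M b) = G.phi b (K b) (M b) := by
    intro K M
    let z : Fib P := (F.five, fun b => (F.phi b (K b) (M b),
      (loE _ (F.low b).1 + hiE _ (K b), loE _ (F.low b).2 + hiE _ (M b))))
    have hz : z ∈ F.carrier :=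
      ⟨rfl, fun b => ⟨lo_loE_add_hiE _ _, lo_loE_add_hiE _ _, by simp [z, hi_loE_add_hiE]⟩⟩
    rw [h] at hz
    refine ⟨hz.1, fun b => ?_⟩
    obtain ⟨h1, h2, h3⟩ := hz.2 b
    simp only [z, lo_loE_add_hiE, hi_loE_add_hiE] at h1 h2 h3
    exact ⟨Prod.ext h1 h2, h3⟩
  obtain ⟨f1, l1, p1⟩ := F
  obtain ⟨f2, l2, p2⟩ := G
  have hl : l1 = l2 := funext fun b => ((key 0 0).2 b).1
  have hp : p1 = p2 := by
    funext b K M
    simpa using ((key (Function.update 0 b K) (Function.update 0 b M)).2 b).2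
  have hf : f1 = f2 := (key 0 0).1
  subst hl hp hf; rfl

end Vale.Agent.P043.Three
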