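import Vale.Agent.P043.Three.Window
import Vale.Agent.P043.Three.Code
import Vale.Agent.P043.Three.Frame

/-!
# The windows of the bits

The window of a bit of field `f` runs along `step b • axisE f`; the members of one line
are spread along `bigStep P • axisV f`, a direction in which the index of the field is
constant. The window of the forcing bit is of the same kind, for the first field.
-/

namespace Vale.Agent.P043.Three

variable (P : Moduli Bit)

/-- The bits carrying the entries. -/
abbrev FieldBit := Fin 3 × (Fin 125 × (Fin 2 × Fin 2))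

/-- The moduli are pairwise different. -/
structure Separated : Prop where
  pp : Function.Injective P.p
  pq : ∀ a b, P.p a ≠ P.q b
  pr : ∀ a b, P.p a ≠ P.r b

/-- The direction along which the index of a field grows. -/
def axisE (f : Fin 3) : ℤ × ℤ := ![(1, 0), (0, 1), (1, 0)] f

/-- The direction along which the index of a field is constant. -/
def axisV (f : Fin 3) : ℤ × ℤ := ![(0, 1), (1, 0), (1, -1)] f

/-- The coordinate complementary to the index of a field. -/
def crossIndex (f : Fin 3) (x : ℤ × ℤ) : ℤ := ![x.2, x.1, -x.2] f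

/-- The linear form behind the offsets. -/
def kappa (x : ℤ × ℤ) : ℤ := x.1 + 2 * x.2

/-- All field bits (not meant to be enumerated). -/
noncomputable def allBits : Finset FieldBit := @Finset.univ FieldBit (Fintype.ofFinite FieldBit)

lemma mem_allBits (a : FieldBit) : a ∈ allBits := @Finset.mem_univ _ (Fintype.ofFinite FieldBit) a

/-- The product of the large moduli of the field bits. -/
noncomputable def bigStep : ℤ := ∏ a ∈ allBits, (P.p (Sum.inl a) : ℤ)

/-- The same product without the modulus of the given bit. -/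
noncomputable def step (b : Bit) : ℤ :=
  ∏ a ∈ allBits.filter (fun a : FieldBit => (Sum.inl a : Bit) ≠ b), (P.p (Sum.inl a) : ℤ)

lemma five_coprime_p (b : Bit) : Nat.Coprime 5 (P.p b) := by
  refine (Nat.coprime_primes (by norm_num) (P.hp b)).2 ?_
  have := P.hbig b
  omega

lemma r_coprime_q (b : Bit) : Nat.Coprime (P.r b) (P.q b) :=
  (Nat.coprime_primes (P.hr b) (P.hq b)).2 (P.hrq b).ne

/-- The position of a line along the window, from its class and index. -/
noncomputable def ell (b : Bit) (c : ZMod 5) (t : ZMod (P.p b)) : ℤ :=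
  ((ZMod.chineseRemainder (five_coprime_p P b)).symm (c, t)).val

/-- An integer that is `1` modulo `r` and `-1` modulo `q`. -/
noncomputable def turn (b : Bit) : ℤ :=
  ((ZMod.chineseRemainder (r_coprime_q P b)).symm (1, -1)).val

/-- The member numbers inside a line. -/
noncomputable def member (b : Bit) (a : Fin (P.q b) × Fin (P.r b)) : ℤ :=
  turn P b * ((a.2.1 : ℤ) - a.1.1) + if a.1.1 = 2 ∧ a.2.1 = 2 then (P.q b : ℤ) * P.r b else 0

/-- The position of the piece with given line and member. -/
noncomputable def place (b : Bit) (c : ZMod 5) (u : Low P b) : ℤ × ℤ :=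
  (ell P b c u.1 * step P b) • axisE (fieldOf b) +
    (bigStep P * member P b u.2) • axisV (fieldOf b)

/-- The first class of a piece. -/
noncomputable def key₁ (b : Bit) {G : Type} (w : G × Low P b) : G × ZMod (P.p b) × ZMod (P.r b) :=
  (w.1, w.2.1, (member P b w.2.2 : ZMod (P.r b)))

/-- The second class of a piece. -/
noncomputable def key₂ (b : Bit) {G : Type} (w : G × Low P b) : G × ZMod (P.p b) × ZMod (P.q b) :=
  (w.1, w.2.1, (member P b w.2.2 : ZMod (P.q b)))

/-- Sites of the pieces of a field bit. -/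
noncomputable def fieldSite (a : FieldBit) (u : Red P (Sum.inl a)) : ℤ × ℤ :=
  place P (Sum.inl a) u.1 u.2

/-- Shifts of the pieces of a field bit. -/
noncomputable def fieldShift (a : FieldBit) (u : Red P (Sum.inl a)) : ZMod 25 :=
  (kappa ((bigStep P * member P (Sum.inl a) u.2.2) • axisV a.1) : ZMod 25)

/-- The forcing bit. -/
abbrev force : Bit := Sum.inr ()

/-- Sites of the pieces of the forcing bit. -/
noncomputable def forceSite (w : Own P force) : ℤ × ℤ := place P force (digits25 w.1).2 w.2

/-- Shifts of the pieces of the forcing bit. -/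
noncomputable def forceShift (w : Own P force) : ZMod 25 :=
  (((digits25 w.1).1.val : ℕ) : ZMod 25) + (kappa (forceSite P w) : ZMod 25)

/-- The window of a field bit. -/
noncomputable def fieldWindow (a : FieldBit)
    (L : Red P (Sum.inl a) → Fin (P.q (Sum.inl a)) × Fin (P.r (Sum.inl a))) : Idx P → Pt P :=
  windowMap (Sum.inl a) (fieldSite P a ∘ dropHigh _)
    (fun w => fieldShift P a (dropHigh _ w) + digitE (digits25 w.1).2) (L ∘ dropHigh _)

/-- The window of the forcing bit. -/
noncomputable def forceWindow (L : Own P force → Fin (P.q force) × Fin (P.r force)) :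
    Idx P → Pt P :=
  windowMap force (forceSite P) (forceShift P) L

/-- What the windows ask of a field of frames, for a field bit. -/
def FieldPacks (F : ℤ × ℤ → Frame P) (a : FieldBit) : Prop :=
  ∀ L, ValidLab (Sum.inl a) (key₁ P (Sum.inl a)) (key₂ P (Sum.inl a)) L →
    Packs F (Sum.inl a) (fieldSite P a)
      (fun x u => red ((F x).five + fieldShift P a u)) L

/-- What the windows ask of a field of frames, for the forcing bit. -/
def ForcePacks (F : ℤ × ℤ → Frame P) : Prop :=
  ∀ L, ValidLab force (key₁ P force) (key₂ P force) L →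
    Packs F force (forceSite P) (blockOf F force (forceShift P)) L

lemma fieldWindow_tiles_iff (F : ℤ × ℤ → Frame P) (a : FieldBit)
    (L : Red P (Sum.inl a) → Fin (P.q (Sum.inl a)) × Fin (P.r (Sum.inl a))) :
    TilesBy (setOf' F) (fieldWindow P a L) ↔
      Packs F (Sum.inl a) (fieldSite P a)
        (fun x u => red ((F x).five + fieldShift P a u)) L :=
  (window_tiles_iff F _ _ _ _).trans (packs_reduced F _ _ _ _)

/-! ### Arithmetic of the positions -/

lemma crt_val_fst {m n : ℕ} (h : Nat.Coprime m n) [NeZero (m * n)] (x : ZMod m × ZMod n) :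
    ((((ZMod.chineseRemainder h).symm x).val : ℕ) : ZMod m) = x.1 := by
  conv_rhs => rw [← (ZMod.chineseRemainder h).apply_symm_apply x,
    ← ZMod.natCast_zmod_val ((ZMod.chineseRemainder h).symm x), map_natCast]
  rfl

lemma crt_val_snd {m n : ℕ} (h : Nat.Coprime m n) [NeZero (m * n)] (x : ZMod m × ZMod n) :
    ((((ZMod.chineseRemainder h).symm x).val : ℕ) : ZMod n) = x.2 := by
  conv_rhs => rw [← (ZMod.chineseRemainder h).apply_symm_apply x,
    ← ZMod.natCast_zmod_val ((ZMod.chineseRemainder h).symm x), map_natCast]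
  rfl

lemma ell_five (b : Bit) (c : ZMod 5) (t : ZMod (P.p b)) : (ell P b c t : ZMod 5) = c := by
  rw [ell, Int.cast_natCast]
  exact crt_val_fst (five_coprime_p P b) (c, t)

lemma ell_p (b : Bit) (c : ZMod 5) (t : ZMod (P.p b)) : (ell P b c t : ZMod (P.p b)) = t := by
  rw [ell, Int.cast_natCast]
  exact crt_val_snd (five_coprime_p P b) (c, t)

lemma ell_zero (b : Bit) : ell P b 0 0 = 0 := by
  rw [ell, Prod.mk_zero_zero, map_zero, ZMod.val_zero, Nat.cast_zero]

lemma turn_r (b : Bit) : (turn P b : ZMod (P.r b)) = 1 := by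
  rw [turn, Int.cast_natCast]
  exact crt_val_fst (r_coprime_q P b) (1, -1)

lemma turn_q (b : Bit) : (turn P b : ZMod (P.q b)) = -1 := by
  rw [turn, Int.cast_natCast]
  exact crt_val_snd (r_coprime_q P b) (1, -1)

lemma member_r (b : Bit) (a : Fin (P.q b) × Fin (P.r b)) :
    (member P b a : ZMod (P.r b)) = (a.2.1 : ZMod (P.r b)) - (a.1.1 : ZMod (P.r b)) := by
  unfold member
  split_ifs <;> simp [turn_r]

lemma member_q (b : Bit) (a : Fin (P.q b) × Fin (P.r b)) :
    (member P b a : ZMod (P.q b)) = (a.1.1 : ZMod (P.q b)) - (a.2.1 : ZMod (P.q b)) := by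
  unfold member
  split_ifs <;> simp [turn_q]

/-- The labels given by the local coordinates are valid. -/
lemma valid_default (b : Bit) (G : Type) :
    ∀ w w' : G × Low P b,
      (key₁ P b w = key₁ P b w' → w.2.2.1 = w'.2.2.1 → w = w') ∧
      (key₂ P b w = key₂ P b w' → w.2.2.2 = w'.2.2.2 → w = w') := by
  rintro ⟨g, t, a, c⟩ ⟨g', t', a', c'⟩
  refine ⟨fun h e => ?_, fun h e => ?_⟩
  · simp only [key₁, member_r, Prod.mk.injEq] at h e ⊢
    obtain ⟨hg, ht, h⟩ := h
    subst e
    refine ⟨hg, ht, rfl, natCast_fin_inj (sub_left_inj.1 h)⟩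
  · simp only [key₂, member_q, Prod.mk.injEq] at h e ⊢
    obtain ⟨hg, ht, h⟩ := h
    subst e
    refine ⟨hg, ht, natCast_fin_inj (sub_left_inj.1 h), rfl⟩

lemma fieldIndex_axisV : ∀ f, fieldIndex f (axisV f) = 0 := by decide

lemma fieldIndex_axisE : ∀ f, fieldIndex f (axisE f) = 1 := by decide

lemma crossIndex_axisE : ∀ f, crossIndex f (axisE f) = 0 := by decide

lemma crossIndex_axisV : ∀ f, crossIndex f (axisV f) = 1 := by decide

lemma fieldIndex_add (f : Fin 3) (x y : ℤ × ℤ) :
    fieldIndex f (x + y) = fieldIndex f x + fieldIndex f y := by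
  fin_cases f <;> simp [fieldIndex]; ring

lemma fieldIndex_smul (f : Fin 3) (n : ℤ) (x : ℤ × ℤ) :
    fieldIndex f (n • x) = n * fieldIndex f x := by
  fin_cases f <;> simp [fieldIndex]; ring

lemma crossIndex_add (f : Fin 3) (x y : ℤ × ℤ) :
    crossIndex f (x + y) = crossIndex f x + crossIndex f y := by
  fin_cases f <;> simp [crossIndex]; ring

lemma crossIndex_smul (f : Fin 3) (n : ℤ) (x : ℤ × ℤ) :
    crossIndex f (n • x) = n * crossIndex f x := by
  fin_cases f <;> simp [crossIndex]

lemma kappa_add (x y : ℤ × ℤ) : kappa (x + y) = kappa x + kappa y := by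
  simp [kappa]; ring

lemma kappa_smul (n : ℤ) (x : ℤ × ℤ) : kappa (n • x) = n * kappa x := by
  simp [kappa]; ring

/-- A site is determined by its two coordinates in a field. -/
lemma decompose (f : Fin 3) (x : ℤ × ℤ) :
    x = fieldIndex f x • axisE f + crossIndex f x • axisV f := by
  fin_cases f <;> simp [fieldIndex, crossIndex, axisE, axisV]

lemma step_mul (a : FieldBit) : step P (Sum.inl a) * P.p (Sum.inl a) = bigStep P := by
  have h : allBits.filter (fun c : FieldBit => (Sum.inl c : Bit) ≠ Sum.inl a) = allBits.erase a := by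
    ext c
    simp [mem_allBits]
  rw [step, bigStep, h]
  exact Finset.prod_erase_mul _ _ (mem_allBits a)

lemma step_force : step P force = bigStep P := by
  rw [step, bigStep, Finset.filter_true_of_mem fun a _ => Sum.inl_ne_inr]

lemma dvd_bigStep (a : FieldBit) : (P.p (Sum.inl a) : ℤ) ∣ bigStep P :=
  Finset.dvd_prod_of_mem (fun a : FieldBit => (P.p (Sum.inl a) : ℤ)) (mem_allBits a)

lemma dvd_step (b : Bit) (a : FieldBit) (h : (Sum.inl a : Bit) ≠ b) :
    (P.p (Sum.inl a) : ℤ) ∣ step P b :=
  Finset.dvd_prod_of_mem (fun a : FieldBit => (P.p (Sum.inl a) : ℤ))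
    (Finset.mem_filter.2 ⟨mem_allBits a, h⟩)

variable {P}

lemma prod_cast_ne_zero (S : Finset FieldBit) {n : ℕ} (hn : n.Prime)
    (h : ∀ a ∈ S, P.p (Sum.inl a) ≠ n) :
    ((∏ a ∈ S, (P.p (Sum.inl a) : ℤ) : ℤ) : ZMod n) ≠ 0 := by
  have : Fact n.Prime := ⟨hn⟩
  push_cast
  rw [Finset.prod_ne_zero_iff]
  intro a ha e
  rw [ZMod.natCast_eq_zero_iff] at e
  exact h a ha ((Nat.prime_dvd_prime_iff_eq hn (P.hp _)).1 e).symm

lemma step_p_ne_zero (hP : Separated P) (b : Bit) : (step P b : ZMod (P.p b)) ≠ 0 :=
  prod_cast_ne_zero _ (P.hp b) fun a ha e => (Finset.mem_filter.1 ha).2 (hP.pp e)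

lemma step_five_ne_zero (b : Bit) : (step P b : ZMod 5) ≠ 0 :=
  prod_cast_ne_zero _ (by norm_num) fun a _ e => by
    have := P.hbig (Sum.inl a)
    omega

lemma bigStep_q_ne_zero (hP : Separated P) (b : Bit) : (bigStep P : ZMod (P.q b)) ≠ 0 :=
  prod_cast_ne_zero _ (P.hq b) fun _ _ => hP.pq _ _

lemma bigStep_r_ne_zero (hP : Separated P) (b : Bit) : (bigStep P : ZMod (P.r b)) ≠ 0 :=
  prod_cast_ne_zero _ (P.hr b) fun _ _ => hP.pr _ _

lemma bitModuli_separated : Separated bitModuli where
  pp a b h := (fastPrime_index_injective (i := 2) (j := 2) (by omega) (by omega) h).1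
  pq a b h := absurd (fastPrime_index_injective (i := 2) (j := 1) (by omega) (by omega) h).2
    (by omega)
  pr a b h := absurd (fastPrime_index_injective (i := 2) (j := 0) (by omega) (by omega) h).2
    (by omega)

end Vale.Agent.P043.Three
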