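import Vale.Agent.P043.Combine

/-!
# Lifting a planar system with a cyclic fibre to `ℤ³`
-/

namespace Vale.Agent.P043.Three

variable {R : Type} [CommRing R] [Finite R] {S : Type} [Finite S] {J : Type} [Finite J]

omit [Finite R] [Finite J] in
/-- A finite family of finite sets tiles `ℤ³` simultaneously but never periodically. -/
private lemma exists_lifted_system (hcast : Function.Surjective (Int.cast : ℤ → R))
    (system : J → S → (ℤ × ℤ) × R) (base : J) (s₀ : S) (hbase : system base s₀ = 0)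
    (hsolve : ∃ A : Set ((ℤ × ℤ) × R), ∀ k, TilesBy A (system k))
    (hnoper : ∀ A : Set ((ℤ × ℤ) × R), (∀ k, TilesBy A (system k)) → ∀ P : ℕ, 0 < P →
      ¬∀ x r, (((x.1 + P, x.2) : ℤ × ℤ), r) ∈ A ↔ (x, r) ∈ A) :
    ∃ Fs : Option J → Finset (Fin 3 → ℤ), (∀ k, (Fs k).Nonempty) ∧
      (∃ U, ∀ k, Tiles U (Fs k)) ∧ ∀ U, (∀ k, Tiles U (Fs k)) → ¬BoxPeriodic U := by
  classical
  have := Fintype.ofFinite S
  let π : (Fin 3 → ℤ) → (ℤ × ℤ) × R := fun z => ((z 0, z 1), (z 2 : R))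
  have hπsub : ∀ y z, π (y - z) = π y - π z := fun y z => by simp [π]
  have hπadd : ∀ y z, π (y + z) = π y + π z := fun y z => by simp [π]
  choose sec₀ hsec₀ using hcast
  let sec₁ : R → ℤ := fun r => if r = 0 then 0 else sec₀ r
  have hsec₁ : ∀ r, (sec₁ r : R) = r := fun r => by
    by_cases h : r = 0 <;> simp [sec₁, h, hsec₀]
  let sect : (ℤ × ℤ) × R → Fin 3 → ℤ := fun p => ![p.1.1, p.1.2, sec₁ p.2]
  have hsect : ∀ p, π (sect p) = p := fun p => by simp [π, sect, hsec₁]
  have hsect0 : sect 0 = 0 := by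
    funext i; fin_cases i <;> simp [sect, sec₁]
  obtain ⟨A, hA⟩ := hsolve
  have hinj : ∀ k, Function.Injective (system k) := by
    intro k s t e
    obtain ⟨r, hr, -⟩ := hA k 0
    exact (hA k (0 - system k r + system k s)).unique (by simpa using hr)
      (by rw [e]; simpa using hr)
  let F : J → Finset (Fin 3 → ℤ) := fun k => Finset.univ.image fun s => sect (system k s)
  let N := ringChar R
  let gen : Fin 3 → ℤ := Pi.single 2 (N : ℤ)
  have hgen : π gen = 0 := by simp [π, gen, N]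
  have h0mem : (0 : Fin 3 → ℤ) ∈ F base :=
    Finset.mem_image.2 ⟨s₀, Finset.mem_univ _, by rw [hbase, hsect0]⟩
  have hgenmem : gen ∉ (F base).erase 0 := by
    intro h
    obtain ⟨h0, h⟩ := Finset.mem_erase.1 h
    obtain ⟨s, -, hs⟩ := Finset.mem_image.1 h
    have h1 := congrArg π hs
    rw [hsect, hgen] at h1
    exact h0 (by rw [← hs, h1, hsect0])
  let Fs : Option J → Finset (Fin 3 → ℤ) := fun k =>
    k.elim (insert gen ((F base).erase 0)) F
  refine ⟨Fs, ?_, ?_, ?_⟩
  · rintro (_ | k)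
    · exact Finset.insert_nonempty _ _
    · obtain ⟨s, -⟩ := hA k 0
      exact ⟨_, Finset.mem_image_of_mem _ (Finset.mem_univ s)⟩
  · refine ⟨π ⁻¹' A, ?_⟩
    have hF : ∀ k, Tiles (π ⁻¹' A) (F k) := by
      intro k g
      have key : ∀ s, g - sect (system k s) ∈ π ⁻¹' A ↔ π g - system k s ∈ A := fun s => by
        rw [Set.mem_preimage, hπsub, hsect]
      obtain ⟨s, hs, hu⟩ := hA k (π g)
      refine ⟨_, ⟨Finset.mem_image_of_mem _ (Finset.mem_univ s), (key s).2 hs⟩, ?_⟩
      rintro f ⟨hf, hfA⟩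
      obtain ⟨t, -, rfl⟩ := Finset.mem_image.1 hf
      rw [hu t ((key t).1 hfA)]
    rintro (_ | k) g
    · obtain ⟨f, ⟨hf, hfA⟩, hu⟩ := hF base g
      have hsh : ∀ y, y - gen ∈ π ⁻¹' A ↔ y ∈ π ⁻¹' A := fun y => by
        rw [Set.mem_preimage, hπsub, hgen, sub_zero, Set.mem_preimage]
      by_cases hf0 : f = 0
      · subst hf0
        refine ⟨gen, ⟨Finset.mem_insert_self _ _, by rw [hsh]; simpa using hfA⟩, ?_⟩
        rintro f' ⟨hf', hfA'⟩
        rcases Finset.mem_insert.1 hf' with h | h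
        · exact h
        · exact absurd (hu f' ⟨Finset.mem_of_mem_erase h, hfA'⟩) (Finset.ne_of_mem_erase h)
      · refine ⟨f, ⟨Finset.mem_insert_of_mem (Finset.mem_erase.2 ⟨hf0, hf⟩), hfA⟩, ?_⟩
        rintro f' ⟨hf', hfA'⟩
        rcases Finset.mem_insert.1 hf' with h | h
        · subst h
          rw [hsh] at hfA'
          exact absurd (hu 0 ⟨h0mem, by simpa using hfA'⟩).symm hf0
        · exact hu f' ⟨Finset.mem_of_mem_erase h, hfA'⟩
    · exact hF k g
  · intro U hU hper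
    -- `U` is invariant under the kernel of `π`
    have hinv : ∀ u, u + gen ∈ U ↔ u ∈ U := by
      intro u
      constructor <;> intro h
      · obtain ⟨f, ⟨hf, hfU⟩, -⟩ := hU none (u + gen)
        rcases Finset.mem_insert.1 hf with e | e
        · simpa [e] using hfU
        · have := (hU (some base) (u + gen)).unique
            ⟨Finset.mem_of_mem_erase e, hfU⟩ ⟨h0mem, by simpa using h⟩
          exact absurd this (Finset.ne_of_mem_erase e)
      · obtain ⟨f, ⟨hf, hfU⟩, -⟩ := hU (some base) (u + gen)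
        by_cases e : f = 0
        · simpa [e] using hfU
        · have := (hU none (u + gen)).unique
            ⟨Finset.mem_insert_of_mem (Finset.mem_erase.2 ⟨e, hf⟩), hfU⟩
            ⟨Finset.mem_insert_self _ _, by simpa using h⟩
          exact absurd (this ▸ Finset.mem_erase.2 ⟨e, hf⟩) hgenmem
    have hmul : ∀ (n : ℤ) u, u + n • gen ∈ U ↔ u ∈ U := by
      intro n
      induction n using Int.inductionOn' (b := 0) with
      | zero => simp
      | succ k _ ih => intro u; rw [add_zsmul, one_zsmul, ← add_assoc, hinv, ih]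
      | pred k _ ih =>
        intro u
        rw [← hinv, add_assoc, show (k - 1) • gen + gen = k • gen by
          rw [sub_zsmul, one_zsmul, ← sub_eq_add_neg, sub_add_cancel], ih]
    have hker : ∀ y z, π y = π z → (y ∈ U ↔ z ∈ U) := by
      intro y z h
      simp only [π, Prod.mk.injEq] at h
      obtain ⟨⟨h0, h1⟩, h2⟩ := h
      obtain ⟨a, ha⟩ := (CharP.intCast_eq_zero_iff R N (y 2 - z 2)).1
        (by push_cast; rw [h2, sub_self])
      have : y = z + a • gen := by
        funext j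
        fin_cases j <;> simp [gen]
        · exact h0
        · exact h1
        · linarith
      rw [this, hmul]
    have hmemA : ∀ y, π y ∈ π '' U ↔ y ∈ U := fun y =>
      ⟨fun ⟨z, hz, e⟩ => (hker y z e.symm).2 hz, fun h => ⟨y, h, rfl⟩⟩
    have hsys : ∀ k, TilesBy (π '' U) (system k) := by
      intro k g
      have key : ∀ s, g - system k s ∈ π '' U ↔ sect g - sect (system k s) ∈ U := fun s => by
        rw [← hmemA, hπsub, hsect, hsect]
      obtain ⟨f, ⟨hf, hfU⟩, hu⟩ := hU (some k) (sect g)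
      obtain ⟨s, -, rfl⟩ := Finset.mem_image.1 hf
      refine ⟨s, (key s).2 hfU, fun t ht => hinj k ?_⟩
      have := hu (sect (system k t))
        ⟨Finset.mem_image_of_mem _ (Finset.mem_univ t), (key t).1 ht⟩
      simpa [hsect] using congrArg π this
    obtain ⟨P, hP, hperU⟩ := hper
    refine hnoper _ hsys P hP fun x p => ?_
    have := hperU 0 (sect (x, p))
    rw [← hmemA, ← hmemA, hπadd, hsect] at this
    rw [← this]
    have e : (x, p) + π (Pi.single 0 (P : ℤ)) = ((x.1 + (P : ℤ), x.2), p) := by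
      simp [π, Prod.ext_iff]
    rw [e]

/-- A tile of `ℤ^n` without periodic tilings gives one of `ℤ^(n + m)`. -/
private lemma exists_padded_tile {n : ℕ} (m : ℕ) (F₀ : Finset (Fin n → ℤ)) (hne : F₀.Nonempty)
    (hsol : ∃ A, Tiles A F₀) (hno : ∀ A, Tiles A F₀ → ¬BoxPeriodic A) :
    ∃ F : Finset (Fin (n + m) → ℤ), F.Nonempty ∧
      (∃ A : Set (Fin (n + m) → ℤ), ∀ g, ∃! f, f ∈ F ∧ g - f ∈ A) ∧
      ¬∃ A : Set (Fin (n + m) → ℤ), (∀ g, ∃! f, f ∈ F ∧ g - f ∈ A) ∧
        ∃ H : AddSubgroup (Fin (n + m) → ℤ), H.FiniteIndex ∧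
          ∀ h ∈ H, ∀ a, a + h ∈ A ↔ a ∈ A := by
  classical
  obtain ⟨A₀, hA₀⟩ := hsol
  let pad : (Fin n → ℤ) → Fin (n + m) → ℤ := fun x => Fin.append x 0
  let q : (Fin (n + m) → ℤ) → Fin n → ℤ := fun x i => x (Fin.castAdd m i)
  have hq : ∀ x, q (pad x) = x := fun x => by funext i; simp [q, pad]
  have hqsub : ∀ x y, q (x - y) = q x - q y := fun x y => by funext i; simp [q]
  have hpsub : ∀ x y, pad x - pad y = pad (x - y) := fun x y => by
    funext i; induction i using Fin.addCases <;> simp [pad]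
  have hpadd : ∀ x y, pad x + pad y = pad (x + y) := fun x y => by
    funext i; induction i using Fin.addCases <;> simp [pad]
  refine ⟨F₀.image pad, hne.image _, ⟨q ⁻¹' A₀, fun g => ?_⟩, ?_⟩
  · have key : ∀ f, g - pad f ∈ q ⁻¹' A₀ ↔ q g - f ∈ A₀ := fun f => by
      rw [Set.mem_preimage, hqsub, hq]
    obtain ⟨f, ⟨hf, hfA⟩, hu⟩ := hA₀ (q g)
    refine ⟨pad f, ⟨Finset.mem_image_of_mem _ hf, (key f).2 hfA⟩, ?_⟩
    rintro x ⟨hx, hxA⟩
    obtain ⟨f', hf', rfl⟩ := Finset.mem_image.1 hx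
    rw [hu f' ⟨hf', (key f').1 hxA⟩]
  · rintro ⟨A, hA, H, hH, hper⟩
    refine hno (pad ⁻¹' A) (fun g => ?_)
      ⟨H.index, Nat.pos_of_ne_zero hH.index_ne_zero, fun i a => ?_⟩
    · obtain ⟨x, ⟨hx, hxA⟩, hu⟩ := hA (pad g)
      obtain ⟨f, hf, rfl⟩ := Finset.mem_image.1 hx
      refine ⟨f, ⟨hf, by show pad (g - f) ∈ A; rwa [← hpsub]⟩, fun f' ⟨hf', hf'A⟩ => ?_⟩
      have := hu (pad f') ⟨Finset.mem_image_of_mem _ hf', by rw [hpsub]; exact hf'A⟩
      simpa [hq] using congrArg q this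
    · show pad (a + Pi.single i ((H.index : ℕ) : ℤ)) ∈ A ↔ pad a ∈ A
      rw [← hpadd]
      refine hper _ ?_ _
      have h := H.nsmul_index_mem (pad (Pi.single i 1))
      convert h using 1
      funext j
      induction j using Fin.addCases with
      | left j => rcases eq_or_ne j i with rfl | hne <;> simp [pad, *]
      | right j => simp [pad]

/-- A system of equations on `ℤ² × R`, `R` cyclic, that can be solved but not periodically
gives a tile of `ℤ^d`, every `d ≥ 3`, without periodic tilings. -/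
theorem periodic_tiling_fails_of_system (hcast : Function.Surjective (Int.cast : ℤ → R))
    (system : J → S → (ℤ × ℤ) × R) (base : J) (s₀ : S) (hbase : system base s₀ = 0)
    (hsolve : ∃ A : Set ((ℤ × ℤ) × R), ∀ k, TilesBy A (system k))
    (hnoper : ∀ A : Set ((ℤ × ℤ) × R), (∀ k, TilesBy A (system k)) → ∀ P : ℕ, 0 < P →
      ¬∀ x r, (((x.1 + P, x.2) : ℤ × ℤ), r) ∈ A ↔ (x, r) ∈ A)
    (d : ℕ) (hd : 3 ≤ d) :
    ∃ F : Finset (Fin d → ℤ), F.Nonempty ∧
      (∃ A : Set (Fin d → ℤ), ∀ g, ∃! f, f ∈ F ∧ g - f ∈ A) ∧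
      ¬∃ A : Set (Fin d → ℤ), (∀ g, ∃! f, f ∈ F ∧ g - f ∈ A) ∧
        ∃ H : AddSubgroup (Fin d → ℤ), H.FiniteIndex ∧ ∀ h ∈ H, ∀ a, a + h ∈ A ↔ a ∈ A := by
  obtain ⟨m, rfl⟩ := Nat.exists_eq_add_of_le hd
  obtain ⟨Fs, hne, hsol, hno⟩ :=
    exists_lifted_system hcast system base s₀ hbase hsolve hnoper
  have := Fintype.ofFinite (Option J)
  obtain ⟨F, hF, h1, h2⟩ := exists_single_tile Fs hne
  exact exists_padded_tile m F hF (h1 hsol) fun A hA hper => by
    obtain ⟨U, hU, hUp⟩ := h2 A hA hper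
    exact hno U hU hUp

end Vale.Agent.P043.Three
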