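import Vale.Agent.P043.Three.Geometry

/-!
# What the windows impose on the statuses
-/

namespace Vale.Agent.P043.Three

variable {P : Moduli Bit} {F : ℤ × ℤ → Frame P}

lemma one_lt_r (b : Bit) : 1 < P.r b := lt_trans (by norm_num) (P.hr3 b)

lemma one_lt_q (b : Bit) : 1 < P.q b := (one_lt_r b).trans (P.hrq b)

lemma validLab_default (b : Bit) (G : Type) :
    ValidLab b (key₁ P b) (key₂ P b) (fun u : G × Low P b => u.2.2) :=
  ⟨fun w w' => (valid_default P b G w w').1, fun w w' => (valid_default P b G w w').2⟩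

/-- Two members at the same place. -/
lemma member_diagonal (b : Bit) :
    member P b (⟨0, (one_lt_q b).trans' Nat.one_pos⟩, ⟨0, (one_lt_r b).trans' Nat.one_pos⟩) =
      member P b (⟨1, one_lt_q b⟩, ⟨1, one_lt_r b⟩) := by
  simp [member]

/-- A component is not constant. -/
theorem field_exclusive {a : FieldBit} (h : FieldPacks P F a) (x : ℤ × ℤ) :
    ¬((F x).Alpha (Sum.inl a) ∧ (F x).Beta (Sum.inl a)) := by
  refine not_alpha_and_beta F _ (fieldSite P a) _ (fun u => u.2.2)
    (h _ (validLab_default _ _))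
    ((0, (0, (⟨0, (one_lt_q _).trans' Nat.one_pos⟩, ⟨0, (one_lt_r _).trans' Nat.one_pos⟩))) :
      Red P (Sum.inl a))
    (0, (0, (⟨1, one_lt_q _⟩, ⟨1, one_lt_r _⟩))) ?_ ?_ (fun y => ?_) x
  · simp [Prod.ext_iff, Fin.ext_iff]
  · simp only [fieldSite, place, member_diagonal]
  · simp only [fieldShift, member_diagonal]

/-- The forcing component is not constant. -/
theorem force_exclusive (h : ForcePacks P F) (x : ℤ × ℤ) :
    ¬((F x).Alpha force ∧ (F x).Beta force) := by
  refine not_alpha_and_beta F _ (forceSite P) _ (fun u => u.2.2)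
    (h _ (validLab_default _ _))
    ((0, (0, (⟨0, (one_lt_q _).trans' Nat.one_pos⟩, ⟨0, (one_lt_r _).trans' Nat.one_pos⟩))) :
      Own P force)
    (0, (0, (⟨1, one_lt_q _⟩, ⟨1, one_lt_r _⟩))) ?_ ?_ (fun y => ?_) x
  · simp [Prod.ext_iff, Fin.ext_iff]
  · simp only [forceSite, place, member_diagonal]
  · simp only [blockOf, forceShift, forceSite, place, member_diagonal]

lemma fieldSite_zero (a : FieldBit) (m : Fin (P.q (Sum.inl a)) × Fin (P.r (Sum.inl a))) :
    fieldSite P a (0, (0, m)) = (bigStep P * member P (Sum.inl a) m) • axisV a.1 := by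
  simp [fieldSite, place, ell_zero, fieldOf]

/-- The periods of a status along one direction. -/
def periods (p : ℤ × ℤ → Prop) (v : ℤ × ℤ) : AddSubgroup ℤ where
  carrier := {d | ∀ x, p (x + d • v) ↔ p x}
  zero_mem' x := by simp
  add_mem' {d e} hd he x := by rw [add_smul, ← add_assoc]; exact (he _).trans (hd x)
  neg_mem' {d} hd x := by
    have := hd (x + (-d) • v)
    rw [add_assoc, ← add_smul, neg_add_cancel, zero_smul, add_zero] at this
    exact this.symm

lemma member_cast_iff (b : Bit) (n : ℕ) (m₁ m₂ : Fin (P.q b) × Fin (P.r b)) :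
    ((member P b m₁ : ZMod n) = member P b m₂) ↔ (n : ℤ) ∣ member P b m₂ - member P b m₁ :=
  ZMod.intCast_eq_intCast_iff_dvd_sub _ _ _

lemma alpha_periods {a : FieldBit} (h : FieldPacks P F a)
    {m₁ m₂ : Fin (P.q (Sum.inl a)) × Fin (P.r (Sum.inl a))}
    (hm : (P.r (Sum.inl a) : ℤ) ∣ member P _ m₂ - member P _ m₁) :
    bigStep P * (member P _ m₂ - member P _ m₁) ∈
      periods (fun x => (F x).Alpha (Sum.inl a)) (axisV a.1) := by
  have key : ∀ m₁ m₂ : Fin (P.q (Sum.inl a)) × Fin (P.r (Sum.inl a)),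
      (P.r (Sum.inl a) : ℤ) ∣ member P _ m₂ - member P _ m₁ → ∀ x, (F x).Alpha (Sum.inl a) →
        (F (x + (bigStep P * (member P _ m₁ - member P _ m₂)) • axisV a.1)).Alpha (Sum.inl a) := by
    intro m₁ m₂ hm x hA
    have hk : key₁ P (Sum.inl a) ((0, (0, m₁)) : Red P (Sum.inl a)) =
        key₁ P (Sum.inl a) ((0, (0, m₂)) : Red P (Sum.inl a)) := by
      simp only [key₁, (member_cast_iff _ _ _ _).2 hm]
    have e₁ : x + fieldSite P a (0, (0, m₁)) - fieldSite P a (0, (0, m₁)) = x :=
      add_sub_cancel_right _ _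
    have hs := alpha_spreads F (Sum.inl a) (fieldSite P a) _ (fun u => u.2.2) (key₁ P _)
      (key₂ P _) h (validLab_default _ _) _ _ hk (x + fieldSite P a (0, (0, m₁)))
      (by rw [e₁]; exact hA) (by rw [e₁]; exact fun hB => field_exclusive h x ⟨hA, hB⟩)
    have e₂ : x + (bigStep P * (member P _ m₁ - member P _ m₂)) • axisV a.1 =
        x + fieldSite P a (0, (0, m₁)) - fieldSite P a (0, (0, m₂)) := by
      rw [fieldSite_zero, fieldSite_zero, add_sub_assoc, ← sub_smul, mul_sub]
    intro K M M'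
    rw [e₂, hs.2.2, e₁]
    exact hA K M M'
  intro x
  refine ⟨fun hx => ?_, fun hx => key m₂ m₁ (by rw [← dvd_neg, neg_sub]; exact hm) x hx⟩
  have := key m₁ m₂ hm _ hx
  rwa [add_assoc, ← add_smul, ← mul_add, sub_add_sub_cancel, sub_self, mul_zero, zero_smul,
    add_zero] at this

lemma beta_periods {a : FieldBit} (h : FieldPacks P F a)
    {m₁ m₂ : Fin (P.q (Sum.inl a)) × Fin (P.r (Sum.inl a))}
    (hm : (P.q (Sum.inl a) : ℤ) ∣ member P _ m₂ - member P _ m₁) :
    bigStep P * (member P _ m₂ - member P _ m₁) ∈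
      periods (fun x => (F x).Beta (Sum.inl a)) (axisV a.1) := by
  have key : ∀ m₁ m₂ : Fin (P.q (Sum.inl a)) × Fin (P.r (Sum.inl a)),
      (P.q (Sum.inl a) : ℤ) ∣ member P _ m₂ - member P _ m₁ → ∀ x, (F x).Beta (Sum.inl a) →
        (F (x + (bigStep P * (member P _ m₁ - member P _ m₂)) • axisV a.1)).Beta (Sum.inl a) := by
    intro m₁ m₂ hm x hB
    have hk : key₂ P (Sum.inl a) ((0, (0, m₁)) : Red P (Sum.inl a)) =
        key₂ P (Sum.inl a) ((0, (0, m₂)) : Red P (Sum.inl a)) := by
      simp only [key₂, (member_cast_iff _ _ _ _).2 hm]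
    have e₁ : x + fieldSite P a (0, (0, m₁)) - fieldSite P a (0, (0, m₁)) = x :=
      add_sub_cancel_right _ _
    have hs := beta_spreads F (Sum.inl a) (fieldSite P a) _ (fun u => u.2.2) (key₁ P _)
      (key₂ P _) h (validLab_default _ _) _ _ hk (x + fieldSite P a (0, (0, m₁)))
      (by rw [e₁]; exact hB) (by rw [e₁]; exact fun hA => field_exclusive h x ⟨hA, hB⟩)
    have e₂ : x + (bigStep P * (member P _ m₁ - member P _ m₂)) • axisV a.1 =
        x + fieldSite P a (0, (0, m₁)) - fieldSite P a (0, (0, m₂)) := by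
      rw [fieldSite_zero, fieldSite_zero, add_sub_assoc, ← sub_smul, mul_sub]
    intro K K' M
    rw [e₂, hs.2.2, e₁]
    exact hB K K' M
  intro x
  refine ⟨fun hx => ?_, fun hx => key m₂ m₁ (by rw [← dvd_neg, neg_sub]; exact hm) x hx⟩
  have := key m₁ m₂ hm _ hx
  rwa [add_assoc, ← add_smul, ← mul_add, sub_add_sub_cancel, sub_self, mul_zero, zero_smul,
    add_zero] at this

/-- Alpha is invariant under the multiples of `r`. -/
lemma alpha_mul_r {a : FieldBit} (h : FieldPacks P F a) (n : ℤ) :
    bigStep P * (n * P.r (Sum.inl a)) ∈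
      periods (fun x => (F x).Alpha (Sum.inl a)) (axisV a.1) := by
  set b : Bit := Sum.inl a
  have hr := P.hr3 b
  have hq := P.hrq b
  obtain ⟨k, hk⟩ : (P.q b : ℤ) ∣ turn P b + 1 := by
    rw [← ZMod.intCast_zmod_eq_zero_iff_dvd]
    simp [turn_q]
  let o : Fin (P.q b) × Fin (P.r b) := (⟨0, by omega⟩, ⟨0, by omega⟩)
  let u : Fin (P.q b) × Fin (P.r b) := (⟨P.r b, hq⟩, ⟨0, by omega⟩)
  let w : Fin (P.q b) × Fin (P.r b) := (⟨2, by omega⟩, ⟨2, by omega⟩)
  have ho : member P b o = 0 := by simp [member, o]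
  have hu : member P b u = -(turn P b * P.r b) := by simp [member, u]
  have hw : member P b w = (P.q b : ℤ) * P.r b := by simp [member, w]
  have h1 := alpha_periods h (m₁ := o) (m₂ := u) (by
    rw [ho, hu, sub_zero, dvd_neg]; exact dvd_mul_left _ _)
  have h2 := alpha_periods h (m₁ := o) (m₂ := w) (by
    rw [ho, hw, sub_zero]; exact dvd_mul_left _ _)
  have h3 := add_mem (zsmul_mem h1 n) (zsmul_mem h2 (n * k))
  convert h3 using 1
  rw [show member P (Sum.inl a) u = -(turn P b * P.r b) from hu,
    show member P (Sum.inl a) w = (P.q b : ℤ) * P.r b from hw,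
    show member P (Sum.inl a) o = 0 from ho]
  simp only [smul_eq_mul]
  linear_combination (bigStep P * n * (P.r b : ℤ)) * hk

/-- Beta is invariant under the multiples of `q`. -/
lemma beta_mul_q {a : FieldBit} (h : FieldPacks P F a) (n : ℤ) :
    bigStep P * (n * P.q (Sum.inl a)) ∈
      periods (fun x => (F x).Beta (Sum.inl a)) (axisV a.1) := by
  set b : Bit := Sum.inl a
  have hr := P.hr3 b
  have hq := P.hrq b
  obtain ⟨k, hk⟩ : (P.r b : ℤ) ∣ turn P b - 1 := by
    rw [← ZMod.intCast_zmod_eq_zero_iff_dvd]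
    simp [turn_r]
  let o : Fin (P.q b) × Fin (P.r b) := (⟨0, by omega⟩, ⟨0, by omega⟩)
  let u : Fin (P.q b) × Fin (P.r b) := (⟨P.q b - 1, by omega⟩, ⟨0, by omega⟩)
  let v : Fin (P.q b) × Fin (P.r b) := (⟨0, by omega⟩, ⟨1, by omega⟩)
  let w : Fin (P.q b) × Fin (P.r b) := (⟨2, by omega⟩, ⟨2, by omega⟩)
  have ho : member P b o = 0 := by simp [member, o]
  have hu : member P b u = -(turn P b * ((P.q b : ℤ) - 1)) := by
    simp [member, u, Nat.cast_sub (show 1 ≤ P.q b by omega)]
    ring
  have hv : member P b v = turn P b := by simp [member, v]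
  have hw : member P b w = (P.q b : ℤ) * P.r b := by simp [member, w]
  have h1 := beta_periods h (m₁ := u) (m₂ := v) (by
    rw [hu, hv]; exact ⟨turn P b, by ring⟩)
  have h2 := beta_periods h (m₁ := o) (m₂ := w) (by
    rw [ho, hw, sub_zero]; exact dvd_mul_right _ _)
  have h3 := sub_mem (zsmul_mem h1 n) (zsmul_mem h2 (n * k))
  convert h3 using 1
  rw [show member P (Sum.inl a) u = -(turn P b * ((P.q b : ℤ) - 1)) from hu,
    show member P (Sum.inl a) v = turn P b from hv,
    show member P (Sum.inl a) w = (P.q b : ℤ) * P.r b from hw,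
    show member P (Sum.inl a) o = 0 from ho]
  simp only [smul_eq_mul]
  linear_combination -(bigStep P * n * (P.q b : ℤ)) * hk

/-- The status of a field bit is constant along the direction in which its index is. -/
theorem field_invariant {a : FieldBit} (h : FieldPacks P F a)
    (htot : ∀ x, (F x).Alpha (Sum.inl a) ∨ (F x).Beta (Sum.inl a)) (x : ℤ × ℤ) (k : ℤ) :
    (F (x + (bigStep P * k) • axisV a.1)).Alpha (Sum.inl a) ↔ (F x).Alpha (Sum.inl a) := by
  have key : ∀ (x : ℤ × ℤ) (k : ℤ), (F x).Alpha (Sum.inl a) →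
      (F (x + (bigStep P * k) • axisV a.1)).Alpha (Sum.inl a) := by
    intro x k hA
    refine (htot _).resolve_right fun hB => ?_
    obtain ⟨u, v, huv⟩ : IsCoprime (P.r (Sum.inl a) : ℤ) (P.q (Sum.inl a) : ℤ) :=
      Int.isCoprime_iff_nat_coprime.2 (r_coprime_q P (Sum.inl a))
    have hy : (F (x + (bigStep P * ((k * u) * P.r (Sum.inl a))) • axisV a.1)).Alpha (Sum.inl a) :=
      (alpha_mul_r h (k * u) x).2 hA
    have hy' := (beta_mul_q h (-(k * v)) _).2 hB
    rw [add_assoc, ← add_smul] at hy'
    rw [show bigStep P * k + bigStep P * (-(k * v) * (P.q (Sum.inl a) : ℤ)) =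
      bigStep P * ((k * u) * P.r (Sum.inl a)) by
        linear_combination -(bigStep P * k) * huv] at hy'
    exact field_exclusive h _ ⟨hy, hy'⟩
  refine ⟨fun hA => ?_, key x k⟩
  have := key _ (-k) hA
  rwa [add_assoc, ← add_smul, mul_neg, add_neg_cancel, zero_smul, add_zero] at this

lemma card_key₁ (c : ZMod 25 × ZMod (P.p force) × ZMod (P.r force)) :
    (Finset.univ.filter fun w : Own P force => key₁ P force w = c).card = P.q force := by
  classical
  obtain ⟨g, t, m⟩ := c
  refine Eq.trans ?_ (Finset.card_fin (P.q force))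
  refine Finset.card_bij (fun w _ => w.2.2.1) (fun _ _ => Finset.mem_univ _)
    (fun w hw w' hw' e => ?_) (fun a _ => ?_)
  · simp only [Finset.mem_filter, Finset.mem_univ, true_and] at hw hw'
    exact ((valid_default P force _) w w').1 (hw.trans hw'.symm) e
  · refine ⟨(g, (t, (a, ⟨(m + (a.1 : ZMod (P.r force))).val, ZMod.val_lt _⟩))), ?_, rfl⟩
    simp [key₁, member_r]

lemma card_key₂ (c : ZMod 25 × ZMod (P.p force) × ZMod (P.q force)) :
    (Finset.univ.filter fun w : Own P force => key₂ P force w = c).card = P.r force := by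
  classical
  obtain ⟨g, t, m⟩ := c
  refine Eq.trans ?_ (Finset.card_fin (P.r force))
  refine Finset.card_bij (fun w _ => w.2.2.2) (fun _ _ => Finset.mem_univ _)
    (fun w hw w' hw' e => ?_) (fun a _ => ?_)
  · simp only [Finset.mem_filter, Finset.mem_univ, true_and] at hw hw'
    exact ((valid_default P force _) w w').2 (hw.trans hw'.symm) e
  · refine ⟨(g, (t, (⟨(m + (a.1 : ZMod (P.q force))).val, ZMod.val_lt _⟩, a))), ?_, rfl⟩
    simp [key₂, member_q]

lemma forceSite_eq (w : Own P force) :
    forceSite P w = (bigStep P * ell P force (digits25 w.1).2 w.2.1,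
      bigStep P * member P force w.2.2) := by
  simp [forceSite, place, step_force, fieldOf, axisE, axisV, mul_comm]

/-- The forcing window cannot see one status only. -/
theorem force_not_constant (h : ForcePacks P F)
    (htot : ∀ x, (F x).Alpha force ∨ (F x).Beta force) :
    ∃ x : ℤ × ℤ, ∃ i j : ℤ,
      ¬((F (x + (bigStep P * i, bigStep P * j))).Alpha force ↔ (F x).Alpha force) := by
  by_contra hne
  simp only [not_exists, not_not] at hne
  have hst : ∀ w : Own P force,
      ((F (0 - forceSite P w)).Alpha force ↔ (F 0).Alpha force) := fun w => by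
    have := hne 0 (-ell P force (digits25 w.1).2 w.2.1) (-member P force w.2.2)
    rw [zero_add] at this
    rw [forceSite_eq, zero_sub, Prod.neg_mk, ← mul_neg, ← mul_neg]
    exact this
  have hlt : P.q force < P.p force ∧ P.r force < P.p force := by
    have h1 := P.hbig force
    have h2 : P.q force ≤ P.q force * P.r force := Nat.le_mul_of_pos_right _ (P.hr force).pos
    have h3 := P.hrq force
    omega
  have hall : ∀ L, ValidLab force (key₁ P force) (key₂ P force) L →
      Packs F force (forceSite P) (blockOf F force (forceShift P)) L := h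
  rcases htot 0 with hA | hB
  · refine class_count F force (forceSite P) (blockOf F force (forceShift P)) (fun u => u.2.2)
      (hall _ (validLab_default _ _)) 0
      (k := P.q force) (fun hd => hlt.1.ne
        ((Nat.prime_dvd_prime_iff_eq (P.hq force) (P.hp force)).1 hd))
      ((0, 0) : Own P force) (key₁ P force) card_key₁ fun w w' hk => ?_
    have hw := (hst w).2 hA
    have := alpha_spreads F force (forceSite P) _ (fun u => u.2.2) (key₁ P _) (key₂ P _) hall
      (validLab_default _ _) w w' hk 0 hw (fun hB => force_exclusive h _ ⟨hw, hB⟩)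
    exact ⟨this.1, this.2.1⟩
  · refine class_count F force (forceSite P) (blockOf F force (forceShift P)) (fun u => u.2.2)
      (hall _ (validLab_default _ _)) 0
      (k := P.r force) (fun hd => hlt.2.ne
        ((Nat.prime_dvd_prime_iff_eq (P.hr force) (P.hp force)).1 hd))
      ((0, 0) : Own P force) (key₂ P force) card_key₂ fun w w' hk => ?_
    have hnA : ¬(F (0 - forceSite P w)).Alpha force := fun hA' =>
      force_exclusive h 0 ⟨(hst w).1 hA', hB⟩
    have := beta_spreads F force (forceSite P) _ (fun u => u.2.2) (key₁ P _) (key₂ P _) hall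
      (validLab_default _ _) w w' hk 0 ((htot _).resolve_left hnA) hnA
    exact ⟨this.1, this.2.1⟩

end Vale.Agent.P043.Three
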