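import Vale.Agent.P043.Three.Geometry
import Vale.Agent.P043.Three.Arrangement

/-!
# The intended solution fills all windows
-/

namespace Vale.Agent.P043.Three

variable (P : Moduli Bit)

/-- The factor of the index class in the blocks of a bit. -/
def blockFactor (b : Bit) : ZMod 5 := (kappa (axisE (fieldOf b)) : ZMod 5)

lemma blockFactor_ne_zero (b : Bit) : blockFactor b ≠ 0 :=
  (by decide : ∀ f, (kappa (axisE f) : ZMod 5) ≠ 0) (fieldOf b)

lemma exists_bit_placement (b : Bit) :
    ∃ (placeA : ZMod 5 × ZMod (P.p b) → ZMod (P.r b) → (Fin (P.q b) × Fin (P.r b)) × ℕ)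
      (placeB : ZMod 5 × ZMod (P.p b) → ZMod (P.q b) → (Fin (P.q b) × Fin (P.r b)) × ℕ),
      ∀ col : ZMod 5 × ZMod (P.p b) → Bool, (∀ j, col (padA b, j) = true) →
        (∀ j, col (padB b, j) = false) →
        (∀ l l' g g', col l = true → col l' = true → ∀ d d', d < P.q b → d' < P.q b →
          blockFactor b * l.1 + (l.2.val : ZMod 5) = blockFactor b * l'.1 + (l'.2.val : ZMod 5) →
          (placeA l g).1 = (placeA l' g').1 →
          (((placeA l g).2 + d : ℕ) : ZMod (P.p b)) =
            (((placeA l' g').2 + d' : ℕ) : ZMod (P.p b)) →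
          l = l' ∧ g = g' ∧ d = d') ∧
        (∀ l l' g g', col l = false → col l' = false → ∀ d d', d < P.r b → d' < P.r b →
          blockFactor b * l.1 + (l.2.val : ZMod 5) = blockFactor b * l'.1 + (l'.2.val : ZMod 5) →
          (placeB l g).1 = (placeB l' g').1 →
          (((placeB l g).2 + d : ℕ) : ZMod (P.p b)) =
            (((placeB l' g').2 + d' : ℕ) : ZMod (P.p b)) →
          l = l' ∧ g = g' ∧ d = d') ∧
        (∀ l l' g g', col l = true → col l' = false → ∀ d d', d < P.q b → d' < P.r b →
          blockFactor b * l.1 + (l.2.val : ZMod 5) = blockFactor b * l'.1 + (l'.2.val : ZMod 5) →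
          (placeA l g).1 = (placeB l' g').1 →
          (((placeA l g).2 + d : ℕ) : ZMod (P.p b)) ≠
            (((placeB l' g').2 + d' : ℕ) : ZMod (P.p b))) :=
  exists_placement (P.p b) (P.q b) (P.r b) (P.hp b) (P.hq b) (P.hr b) (P.hrq b) (P.hr3 b)
    (P.hbig b) (blockFactor b) (padA b) (padB b) (blockFactor_ne_zero b) (padA_ne_padB b)

/-- The bars of the lines of colour `true`. -/
noncomputable def barA (b : Bit) :
    ZMod 5 × ZMod (P.p b) → ZMod (P.r b) → (Fin (P.q b) × Fin (P.r b)) × ℕ :=
  (exists_bit_placement P b).choose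

/-- The bars of the lines of colour `false`. -/
noncomputable def barB (b : Bit) :
    ZMod 5 × ZMod (P.p b) → ZMod (P.q b) → (Fin (P.q b) × Fin (P.r b)) × ℕ :=
  (exists_bit_placement P b).choose_spec.choose

/-- The line of a bit through a site. -/
def lineAt (b : Bit) (x : ℤ × ℤ) : ZMod 5 × ZMod (P.p b) :=
  ((fieldIndex (fieldOf b) x : ZMod 5), (fieldIndex (fieldOf b) x : ZMod (P.p b)))

/-- The block of a line. -/
def lineBlock (b : Bit) (x : ℤ × ℤ) : ZMod 5 :=
  blockFactor b * (lineAt P b x).1 + ((lineAt P b x).2.val : ZMod 5)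

/-- The part of the offset counting the indices. -/
noncomputable def indexSum (x : ℤ × ℤ) : ZMod 25 :=
  ∑ a ∈ allBits, ((fieldIndex a.1 x : ZMod (P.p (Sum.inl a))).val : ZMod 25)

/-- The intended frame at a site. -/
noncomputable def intended (x : ℤ × ℤ) : Frame P where
  five := (kappa x : ZMod 25) + indexSum P x +
    5 * ((x.1 : ZMod 25) + ((x.1 : ZMod (P.p force)).val : ZMod 25))
  low b := if code (tupleAt x) b then
      (barA P b (lineAt P b x) (crossIndex (fieldOf b) x : ZMod (P.r b))).1
    else (barB P b (lineAt P b x) (crossIndex (fieldOf b) x : ZMod (P.q b))).1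
  phi b K M := if code (tupleAt x) b then
      (((barA P b (lineAt P b x) (crossIndex (fieldOf b) x : ZMod (P.r b))).2 + K.val : ℕ) :
        ZMod (P.p b))
    else (((barB P b (lineAt P b x) (crossIndex (fieldOf b) x : ZMod (P.q b))).2 + M.val : ℕ) :
        ZMod (P.p b))

lemma fieldIndex_sub (f : Fin 3) (x y : ℤ × ℤ) :
    fieldIndex f (x - y) = fieldIndex f x - fieldIndex f y := by
  fin_cases f <;> simp [fieldIndex]; ring

lemma crossIndex_sub (f : Fin 3) (x y : ℤ × ℤ) :
    crossIndex f (x - y) = crossIndex f x - crossIndex f y := by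
  fin_cases f <;> simp [crossIndex]; ring

lemma code_congr (b : Bit) {x y : ℤ × ℤ}
    (h : fieldIndex (fieldOf b) x = fieldIndex (fieldOf b) y) :
    code (tupleAt x) b = code (tupleAt y) b := by
  have he : ∀ f, fieldIndex f x = fieldIndex f y →
      entry (tupleAt x) f = entry (tupleAt y) f := by
    intro f hf
    fin_cases f <;> simp_all [entry, tupleAt, fieldIndex]
  rcases b with ⟨f, v, k, c⟩ | _
  · simp only [code, he f h]
  · exact congrArg (fun i => residueColour (colRes i)) (he 0 h)

lemma fieldIndex_place (b : Bit) (X : ℤ × ℤ) (c : ZMod 5) (u : Low P b) :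
    fieldIndex (fieldOf b) (X - place P b c u) =
      fieldIndex (fieldOf b) X - ell P b c u.1 * step P b := by
  rw [place, fieldIndex_sub, fieldIndex_add, fieldIndex_smul, fieldIndex_smul, fieldIndex_axisE,
    fieldIndex_axisV, mul_one, mul_zero, add_zero]

lemma crossIndex_place (b : Bit) (X : ℤ × ℤ) (c : ZMod 5) (u : Low P b) :
    crossIndex (fieldOf b) (X - place P b c u) =
      crossIndex (fieldOf b) X - bigStep P * member P b u.2 := by
  rw [place, crossIndex_sub, crossIndex_add, crossIndex_smul, crossIndex_smul, crossIndex_axisE,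
    crossIndex_axisV, mul_one, mul_zero, zero_add]

lemma indexTerm_place (b : Bit) (a : FieldBit) (h : (Sum.inl a : Bit) ≠ b) (X : ℤ × ℤ)
    (c : ZMod 5) (u : Low P b) :
    (fieldIndex a.1 (X - place P b c u) : ZMod (P.p (Sum.inl a))) =
      (fieldIndex a.1 X : ZMod (P.p (Sum.inl a))) := by
  have h1 := (ZMod.intCast_zmod_eq_zero_iff_dvd _ _).2 (dvd_step P b a h)
  have h2 := (ZMod.intCast_zmod_eq_zero_iff_dvd _ _).2 (dvd_bigStep P a)
  rw [place, fieldIndex_sub, fieldIndex_add, fieldIndex_smul, fieldIndex_smul]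
  simp [h1, h2]

variable {P}

lemma lineAt_place_injective (hP : Separated P) (b : Bit) (X : ℤ × ℤ) (c c' : ZMod 5)
    (u u' : Low P b) (h : lineAt P b (X - place P b c u) = lineAt P b (X - place P b c' u')) :
    c = c' ∧ u.1 = u'.1 := by
  have : Fact (Nat.Prime 5) := ⟨by norm_num⟩
  simp only [lineAt, fieldIndex_place, Int.cast_sub, Int.cast_mul, ell_five, ell_p,
    Prod.mk.injEq, sub_right_inj] at h
  exact ⟨mul_right_cancel₀ (step_five_ne_zero b) h.1,
    mul_right_cancel₀ (step_p_ne_zero hP b) h.2⟩

/-- Two pieces landing in one cell of one block agree in line and member. -/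
lemma pieces_agree (hP : Separated P) (b : Bit) (X : ℤ × ℤ) (c c' : ZMod 5) (u u' : Low P b)
    (K : ZMod (P.q b)) (M : ZMod (P.r b)) (L L' : Fin (P.q b) × Fin (P.r b))
    (hblk : lineBlock P b (X - place P b c u) = lineBlock P b (X - place P b c' u'))
    (hlow : (intended P (X - place P b c u)).low b = (intended P (X - place P b c' u')).low b)
    (hphi : (intended P (X - place P b c u)).phi b (K - (L.1.1 : ZMod (P.q b)))
        (M - (L.2.1 : ZMod (P.r b))) =
      (intended P (X - place P b c' u')).phi b (K - (L'.1.1 : ZMod (P.q b)))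
        (M - (L'.2.1 : ZMod (P.r b)))) :
    c = c' ∧ u.1 = u'.1 ∧
      ((member P b u.2 : ZMod (P.r b)) = (member P b u'.2 : ZMod (P.r b)) ∧ L.1 = L'.1 ∨
        (member P b u.2 : ZMod (P.q b)) = (member P b u'.2 : ZMod (P.q b)) ∧ L.2 = L'.2) := by
  classical
  let site : ZMod 5 → Low P b → ℤ × ℤ := fun c u => X - place P b c u
  let col : ZMod 5 × ZMod (P.p b) → Bool := fun l =>
    if l.1 = padA b then true else if l.1 = padB b then false
    else decide (∃ c u, lineAt P b (site c u) = l ∧ code (tupleAt (site c u)) b = true)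
  have hcol : ∀ c u, col (lineAt P b (site c u)) = code (tupleAt (site c u)) b := by
    intro c u
    have hres : colRes (entry (tupleAt (site c u)) (fieldOf b)) =
        (lineAt P b (site c u)).1 := colRes_entry_tupleAt _ _
    simp only [col]
    split_ifs with hA hB
    · exact (code_padA _ _ (hres.trans hA)).symm
    · exact (code_padB _ _ (hres.trans hB)).symm
    · rw [Bool.eq_iff_iff, decide_eq_true_iff]
      refine ⟨fun ⟨c', u', hl, hcode⟩ => ?_, fun h => ⟨c, u, rfl, h⟩⟩
      obtain ⟨rfl, ht⟩ := lineAt_place_injective hP b X c' c u' u hl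
      rwa [code_congr b (y := site c' u') (by simp only [site, fieldIndex_place, ht])]
  obtain ⟨hAA, hBB, hAB⟩ := (exists_bit_placement P b).choose_spec.choose_spec col
    (fun _ => if_pos rfl) (fun _ => by simp [col, (padA_ne_padB b).symm])
  have e1 := hcol c u
  have e2 := hcol c' u'
  simp only [site] at e1 e2
  simp only [intended] at hlow hphi
  cases h1 : code (tupleAt (X - place P b c u)) b <;>
    cases h2 : code (tupleAt (X - place P b c' u')) b <;>
    simp only [h1, h2, if_true, if_false, Bool.false_eq_true] at e1 e2 hlow hphi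
  · obtain ⟨hl, hg, hd⟩ := hBB _ _ _ _ e1 e2 _ _ (ZMod.val_lt _) (ZMod.val_lt _) hblk hlow hphi
    obtain ⟨hc, ht⟩ := lineAt_place_injective hP b X c c' u u' hl
    simp only [crossIndex_place, Int.cast_sub, Int.cast_mul, sub_right_inj] at hg
    exact ⟨hc, ht, Or.inr ⟨mul_left_cancel₀ (bigStep_q_ne_zero hP b) hg,
      natCast_fin_inj (sub_right_inj.1 (ZMod.val_injective _ hd))⟩⟩
  · exact absurd hphi.symm
      (hAB _ _ _ _ e2 e1 _ _ (ZMod.val_lt _) (ZMod.val_lt _) hblk.symm hlow.symm)
  · exact absurd hphi (hAB _ _ _ _ e1 e2 _ _ (ZMod.val_lt _) (ZMod.val_lt _) hblk hlow)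
  · obtain ⟨hl, hg, hd⟩ := hAA _ _ _ _ e1 e2 _ _ (ZMod.val_lt _) (ZMod.val_lt _) hblk hlow hphi
    obtain ⟨hc, ht⟩ := lineAt_place_injective hP b X c c' u u' hl
    simp only [crossIndex_place, Int.cast_sub, Int.cast_mul, sub_right_inj] at hg
    exact ⟨hc, ht, Or.inl ⟨mul_left_cancel₀ (bigStep_r_ne_zero hP b) hg,
      natCast_fin_inj (sub_right_inj.1 (ZMod.val_injective _ hd))⟩⟩

/-- The blocks of the window of a field bit. -/
lemma red_offset_field (a : FieldBit) (X : ℤ × ℤ) :
    ∃ C : ZMod 5, ∀ u : Red P (Sum.inl a),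
      red ((intended P (X - fieldSite P a u)).five + fieldShift P a u) =
        C + lineBlock P (Sum.inl a) (X - fieldSite P a u) := by
  refine ⟨(kappa X : ZMod 5) - blockFactor (Sum.inl a) * (fieldIndex a.1 X : ZMod 5) +
    ∑ a' ∈ allBits.erase a, ((fieldIndex a'.1 X : ZMod (P.p (Sum.inl a'))).val : ZMod 5),
    fun u => ?_⟩
  have hsum : red (indexSum P (X - fieldSite P a u)) =
      ((lineAt P (Sum.inl a) (X - fieldSite P a u)).2.val : ZMod 5) +
      ∑ a' ∈ allBits.erase a, ((fieldIndex a'.1 X : ZMod (P.p (Sum.inl a'))).val : ZMod 5) := by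
    rw [indexSum, map_sum, ← Finset.add_sum_erase _ _ (mem_allBits a)]
    simp only [map_natCast]
    refine congrArg₂ (· + ·) rfl (Finset.sum_congr rfl fun a' ha' => ?_)
    rw [fieldSite, indexTerm_place P (Sum.inl a) a'
      (fun e => Finset.ne_of_mem_erase ha' (Sum.inl_injective e))]
  have hk : kappa (X - fieldSite P a u) + kappa ((bigStep P * member P (Sum.inl a) u.2.2) • axisV a.1) =
      kappa X + kappa (axisE a.1) *
        (fieldIndex a.1 (X - fieldSite P a u) - fieldIndex a.1 X) := by
    rw [fieldSite, show a.1 = fieldOf (Sum.inl a) from rfl, fieldIndex_place]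
    simp only [place, kappa, Prod.fst_sub, Prod.snd_sub, Prod.fst_add, Prod.snd_add,
      Prod.smul_fst, Prod.smul_snd, smul_eq_mul]
    ring
  have hk' := congrArg (Int.cast : ℤ → ZMod 5) hk
  simp only [Int.cast_add, Int.cast_mul, Int.cast_sub] at hk'
  simp only [intended, fieldShift, map_add, map_intCast, red_five, hsum, add_zero, lineBlock]
  simp only [lineAt, blockFactor, show fieldOf (Sum.inl a) = a.1 from rfl]
  linear_combination hk'

/-- The blocks of the window of the forcing bit. -/
lemma offset_force (X : ℤ × ℤ) :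
    ∃ C : ZMod 25, ∀ w : Own P force, ∃ y : ZMod 25,
      red y = lineBlock P force (X - forceSite P w) ∧
      (intended P (X - forceSite P w)).five + forceShift P w =
        C + (((digits25 w.1).1.val : ZMod 25) + 5 * y) := by
  refine ⟨(kappa X : ZMod 25) + indexSum P X, fun w =>
    ⟨((X - forceSite P w).1 : ZMod 25) +
      (((X - forceSite P w).1 : ZMod (P.p force)).val : ZMod 25), ?_, ?_⟩⟩
  · simp only [map_add, map_intCast, map_natCast, lineBlock, lineAt, blockFactor, fieldOf]
    simp [fieldIndex, kappa, axisE]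
  · have hsum : indexSum P (X - forceSite P w) = indexSum P X := Finset.sum_congr rfl fun a _ => by
      rw [forceSite, indexTerm_place P force a Sum.inl_ne_inr]
    have hk : kappa (X - forceSite P w) + kappa (forceSite P w) = kappa X := by
      rw [← kappa_add, sub_add_cancel]
    have hk' := congrArg (Int.cast : ℤ → ZMod 25) hk
    simp only [Int.cast_add] at hk'
    simp only [intended, forceShift, hsum]
    linear_combination hk'

/-- A field of frames filling all windows, with the code of the intended tuples as statuses. -/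
theorem exists_intended (P : Moduli Bit) (hP : Separated P) :
    ∃ F : ℤ × ℤ → Frame P, (∀ a, FieldPacks P F a) ∧ ForcePacks P F ∧
      ∀ x b, (code (tupleAt x) b = true → (F x).Alpha b) ∧
        (code (tupleAt x) b = false → (F x).Beta b) := by
  refine ⟨intended P, fun a L hL => ?_, fun L hL => ?_, fun x b => ⟨fun h K M M' => ?_,
    fun h K K' M => ?_⟩⟩
  · refine packs_of_injective _ _ _ _ _ ?_ fun X K M u u' e => ?_
    · simp only [Fintype.card_prod, ZMod.card, Fintype.card_fin]; ring
    simp only [landing, Prod.mk.injEq] at e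
    obtain ⟨hblk, hlow, hphi⟩ := e
    obtain ⟨C, hC⟩ := red_offset_field a X
    rw [hC, hC, add_right_inj] at hblk
    obtain ⟨hc, ht, h | h⟩ :=
      pieces_agree hP (Sum.inl a) X u.1 u'.1 u.2 u'.2 K M (L u) (L u') hblk hlow hphi
    · exact hL.1 u u' (by simp only [key₁, hc, ht, h.1]) h.2
    · exact hL.2 u u' (by simp only [key₂, hc, ht, h.1]) h.2
  · refine packs_of_injective _ _ _ _ _ ?_ fun X K M w w' e => ?_
    · simp only [Fintype.card_prod, ZMod.card, Fintype.card_fin]; ring
    simp only [landing, Prod.mk.injEq, blockOf] at e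
    obtain ⟨hblk, hlow, hphi⟩ := e
    obtain ⟨C, hC⟩ := offset_force (P := P) X
    obtain ⟨y, hy, ey⟩ := hC w
    obtain ⟨y', hy', ey'⟩ := hC w'
    rw [ey, ey', add_right_inj] at hblk
    have hlo : (digits25 w.1).1 = (digits25 w'.1).1 := by
      have := congrArg red hblk
      simpa only [map_add, map_natCast, red_five, add_zero, ZMod.natCast_zmod_val] using this
    rw [hlo, add_right_inj] at hblk
    have hline := red_five_cancel _ _ hblk
    rw [hy, hy'] at hline
    obtain ⟨hc, ht, h | h⟩ := pieces_agree hP force X (digits25 w.1).2 (digits25 w'.1).2 w.2 w'.2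
      K M (L w) (L w') hline hlow hphi
    all_goals have hw : w.1 = w'.1 := digits25.injective (Prod.ext hlo hc)
    · exact hL.1 w w' (by simp only [key₁, hw, ht, h.1]) h.2
    · exact hL.2 w w' (by simp only [key₂, hw, ht, h.1]) h.2
  · simp [intended, h]
  · simp [intended, h]

end Vale.Agent.P043.Three
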