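import Vale.Agent.P043.Three.Sufficiency
import Vale.Agent.P043.Three.Spread
import Vale.Agent.P043.Three.Lift

/-!
# The system on `ℤ² × Fib` and the tile
-/

namespace Vale.Agent.P043.Three

section General

variable {B : Type} [Fintype B] [DecidableEq B] [Nonempty B] (P : Moduli B)

omit [Fintype B] [DecidableEq B] [Nonempty B] in
lemma tilesBy_inFib {A : Set (Pt P)} {e : Idx P → Fib P} :
    TilesBy A (inFib e) ↔ ∀ x, TilesBy {z | (x, z) ∈ A} e := by
  constructor
  · intro h x z
    simpa [inFib] using h (x, z)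
  · rintro h ⟨x, z⟩
    simpa [inFib] using h x z

/-- A family that tiles a frame iff some component differs from `τ`. -/
lemma exists_forbid (τ : B → Bool) :
    ∃ e : Idx P → Fib P, ∀ F : Frame P, TilesBy F.carrier e ↔ ∃ b, F.Holds P (b, !τ b) := by
  have : NeZero (Fintype.card B) := ⟨Fintype.card_ne_zero⟩
  let n := Fintype.equivFin B
  obtain ⟨e, he⟩ := exists_clause P (Fintype.card B) (fun i => (n.symm i, !τ (n.symm i)))
    n.symm.injective
  exact ⟨e, fun F => (he F).trans ⟨fun ⟨i, hi⟩ => ⟨_, hi⟩,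
    fun ⟨b, hb⟩ => ⟨n b, by simpa using hb⟩⟩⟩

end General

variable (P : Moduli Bit)

/-- The patterns that are not codes of admissible tuples. -/
def Forbidden : Type := {τ : Bit → Bool // ∀ t, Good t → code t ≠ τ}

/-- The labellings of the window of a field bit. -/
def FieldLab : Type :=
  Σ a : FieldBit, {L : Red P (Sum.inl a) → Fin (P.q (Sum.inl a)) × Fin (P.r (Sum.inl a)) //
    ValidLab (Sum.inl a) (key₁ P (Sum.inl a)) (key₂ P (Sum.inl a)) L}

/-- The labellings of the window of the forcing bit. -/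
def ForceLab : Type :=
  {L : Own P force → Fin (P.q force) × Fin (P.r force) //
    ValidLab force (key₁ P force) (key₂ P force) L}

instance : Finite Forbidden := inferInstanceAs (Finite {_τ : Bit → Bool // _})

instance : Finite (FieldLab P) := inferInstanceAs (Finite (Σ _, _))

instance : Finite (ForceLab P) := inferInstanceAs (Finite {_L // _})

variable {P} {F : ℤ × ℤ → Frame P}

/-- What the equations say about a field of frames. -/
structure Solves (F : ℤ × ℤ → Frame P) : Prop where
  field : ∀ a, FieldPacks P F a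
  force : ForcePacks P F
  clause : ∀ x τ, (∀ t, Good t → code t ≠ τ) → ∃ b, (F x).Holds P (b, !τ b)

namespace Solves

lemma exclusive (h : Solves F) (x : ℤ × ℤ) : ∀ b, ¬((F x).Alpha b ∧ (F x).Beta b)
  | Sum.inl a => field_exclusive (h.field a) x
  | Sum.inr () => force_exclusive h.force x

open Classical in
/-- The pattern of statuses at a site. -/
noncomputable def pattern (F : ℤ × ℤ → Frame P) (x : ℤ × ℤ) (b : Bit) : Bool :=
  decide ((F x).Alpha b)

lemma pattern_code (h : Solves F) (x : ℤ × ℤ) : ∃ t, Good t ∧ code t = pattern F x := by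
  by_contra hne
  obtain ⟨b, hb⟩ := h.clause x _ fun t ht e => hne ⟨t, ht, e⟩
  by_cases hA : (F x).Alpha b
  · simp [Frame.Holds, pattern, hA] at hb
    exact h.exclusive x b ⟨hA, hb⟩
  · simp [Frame.Holds, pattern, hA] at hb

lemma total (h : Solves F) (x : ℤ × ℤ) (b : Bit) : (F x).Alpha b ∨ (F x).Beta b := by
  by_contra hne
  obtain ⟨hA, hB⟩ := not_or.1 hne
  obtain ⟨t, -, ht⟩ := h.pattern_code x
  obtain ⟨c, hc⟩ := h.clause x (Function.update (pattern F x) b true) fun t' _ e => by
    refine code_flip t t' b (e.trans ?_)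
    rw [ht]
    simp [pattern, hA]
  by_cases hcb : c = b
  · subst hcb
    simp [Frame.Holds, hB] at hc
  · by_cases hA' : (F x).Alpha c
    · simp [Frame.Holds, pattern, Function.update_of_ne hcb, hA'] at hc
      exact h.exclusive x c ⟨hA', hc⟩
    · simp [Frame.Holds, pattern, Function.update_of_ne hcb, hA'] at hc

/-- No field of frames that solves the equations is periodic. -/
theorem not_periodic (h : Solves F) (N : ℕ) (hN : 0 < N) :
    ¬∀ x : ℤ × ℤ, F (x + ((N : ℤ), 0)) = F x := by
  intro hper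
  choose T hgood hT using h.pattern_code
  have hstat : ∀ x b, (F x).Alpha b ↔ code (T x) b = true := fun x b => by
    simp [hT, pattern]
  have hsep : ∀ x y f, (∀ a, (F x).Alpha (Sum.inl (f, a)) ↔ (F y).Alpha (Sum.inl (f, a))) →
      entry (T x) f = entry (T y) f := fun x y f hxy =>
    code_separates _ _ f fun a => Bool.eq_iff_iff.2 (by rw [← hstat, ← hstat]; exact hxy a)
  have hinv : ∀ f x (k : ℤ), entry (T (x + (bigStep P * k) • axisV f)) f = entry (T x) f :=
    fun f x k => hsep _ _ f fun a =>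
      field_invariant (h.field (f, a)) (fun y => h.total y _) x k
  set n := bigStep P
  have hinv' : ∀ f x y (k : ℤ), y = x + (n * k) • axisV f → entry (T y) f = entry (T x) f :=
    fun f x y k e => e ▸ hinv f x k
  obtain ⟨x₀, i₁, j₁, hne⟩ := force_not_constant h.force (fun y => h.total y _)
  -- the three colour lines of the coset of `x₀`
  let colA : ℤ → Fin 125 := fun i => entry (T (x₀ + (n * i, 0))) 0
  let colB : ℤ → Fin 125 := fun j => entry (T (x₀ + (0, n * j))) 1
  let colC : ℤ → Fin 125 := fun k => entry (T (x₀ + (n * k, 0))) 2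
  have hA : ∀ i j, entry (T (x₀ + (n * i, n * j))) 0 = colA i := fun i j =>
    hinv' 0 (x₀ + (n * i, 0)) _ j (by simp [axisV, Prod.ext_iff])
  have hB : ∀ i j, entry (T (x₀ + (n * i, n * j))) 1 = colB j := fun i j =>
    hinv' 1 (x₀ + (0, n * j)) _ i (by simp [axisV, Prod.ext_iff])
  have hC : ∀ i j, entry (T (x₀ + (n * i, n * j))) 2 = colC (i + j) := fun i j =>
    hinv' 2 (x₀ + (n * (i + j), 0)) _ (-j) (by simp [axisV, Prod.ext_iff]; ring)
  have hgood' : ∀ i j,
      colRes (colA i) + colRes (colB j) = colRes (colC (i + j)) ∧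
      Compat (colUnit (colA i)) (colUnit (colB j)) (colUnit (colC (i + j))) ∧
      Fits (colRes (colA i)) (colUnit (colA i)) ∧ Fits (colRes (colB j)) (colUnit (colB j)) ∧
      Fits (colRes (colC (i + j))) (colUnit (colC (i + j))) := fun i j => by
    obtain ⟨g1, g2, g3, g4, g5⟩ := hgood (x₀ + (n * i, n * j))
    rw [← hA i j, ← hB i j, ← hC i j]
    exact ⟨g1, g5, g2, g3, g4⟩
  refine puzzle_not_periodic (colRes ∘ colA) (colRes ∘ colB) (colRes ∘ colC)
    (colUnit ∘ colA) (colUnit ∘ colB) (colUnit ∘ colC) (fun i j => (hgood' i j).1) ⟨i₁, ?_⟩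
    (fun i => (hgood' i 0).2.2.1) (fun j => (hgood' 0 j).2.2.2.1)
    (fun k => add_zero k ▸ (hgood' k 0).2.2.2.2) (fun i j => (hgood' i j).2.1) N hN ?_
  · intro e
    apply hne
    rw [hstat, hstat, ← Bool.eq_iff_iff]
    show residueColour (colRes (entry (T _) 0)) = residueColour (colRes (entry (T x₀) 0))
    rw [hA]
    refine congrArg residueColour (e.trans ?_)
    simp [colA, Prod.mk_zero_zero]
  · have hm : ∀ (m : ℤ) x, F (x + (m * (N : ℤ), 0)) = F x := by
      intro m
      induction m using Int.inductionOn' (b := 0) with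
      | zero => simp
      | succ k _ ih =>
        intro x
        rw [show x + ((k + 1) * (N : ℤ), 0) = x + (k * (N : ℤ), 0) + ((N : ℤ), 0) by
          simp [Prod.ext_iff]; ring, hper, ih]
      | pred k _ ih =>
        intro x
        rw [← hper, show x + ((k - 1) * (N : ℤ), 0) + ((N : ℤ), 0) = x + (k * (N : ℤ), 0) by
          simp [Prod.ext_iff]; ring, ih]
    intro i
    show colUnit (colA (i + N)) = colUnit (colA i)
    congr 1
    refine hsep _ _ 0 fun a => ?_
    rw [show x₀ + (n * (i + N), 0) = x₀ + (n * i, 0) + (n * (N : ℤ), 0) by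
      simp [Prod.ext_iff]; ring, hm]

end Solves

/-- The system: frames, forbidden patterns, windows. -/
theorem exists_system (hP : Separated P) :
    ∃ (J : Type) (_ : Finite J) (system : J → Idx P → Pt P) (base : J),
      system base 0 = 0 ∧ (∃ A, ∀ k, TilesBy A (system k)) ∧
      ∀ A, (∀ k, TilesBy A (system k)) → ∀ N : ℕ, 0 < N →
        ¬∀ x r, (((x.1 + N, x.2) : ℤ × ℤ), r) ∈ A ↔ (x, r) ∈ A := by
  classical
  obtain ⟨κ, _, e, k₀, he₀, hframe, hforced⟩ := exists_frame_system P
  choose cl hcl using fun τ : Forbidden => exists_forbid P τ.1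
  let system : κ ⊕ (Forbidden ⊕ (FieldLab P ⊕ ForceLab P)) → Idx P → Pt P :=
    Sum.elim (fun k => inFib (e k)) (Sum.elim (fun τ => inFib (cl τ))
      (Sum.elim (fun L => fieldWindow P L.1 L.2.1) (fun L => forceWindow P L.1)))
  refine ⟨_, inferInstance, system, Sum.inl k₀, ?_, ?_, ?_⟩
  · simp [system, inFib, he₀, emb_zero]
  · obtain ⟨F, hfield, hforce, hstat⟩ := exists_intended P hP
    refine ⟨setOf' F, ?_⟩
    rintro (k | τ | L | L)
    · exact (tilesBy_inFib P).2 fun x => hframe (F x) k
    · refine (tilesBy_inFib P).2 fun x => (hcl τ (F x)).2 ?_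
      obtain ⟨b, hb⟩ := Function.ne_iff.1 (τ.2 _ (good_tupleAt x))
      refine ⟨b, ?_⟩
      obtain ⟨h1, h2⟩ := hstat x b
      cases hc : code (tupleAt x) b <;> cases ht : τ.1 b
      · exact absurd (hc.trans ht.symm) hb
      · simpa [Frame.Holds, ht] using h2 hc
      · simpa [Frame.Holds, ht] using h1 hc
      · exact absurd (hc.trans ht.symm) hb
    · exact (fieldWindow_tiles_iff P F L.1 L.2.1).2 (hfield L.1 _ L.2.2)
    · exact (window_tiles_iff F _ _ _ _).2 (hforce _ L.2)
  · intro A hA N hN hper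
    choose F hF using fun x => hforced {z | (x, z) ∈ A}
      fun k => (tilesBy_inFib P).1 (hA (Sum.inl k)) x
    have hAF : A = setOf' F := Set.ext fun ⟨x, z⟩ => (Set.ext_iff.1 (hF x) z)
    have hsol : Solves F :=
      { field := fun a L hL => (fieldWindow_tiles_iff P F a L).1
          (hAF ▸ hA (Sum.inr (Sum.inr (Sum.inl ⟨a, L, hL⟩))))
        force := fun L hL => (window_tiles_iff F _ _ _ _).1
          (hAF ▸ hA (Sum.inr (Sum.inr (Sum.inr ⟨L, hL⟩))))
        clause := fun x τ hτ => (hcl ⟨τ, hτ⟩ (F x)).1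
          (hF x ▸ (tilesBy_inFib P).1 (hA (Sum.inr (Sum.inl ⟨τ, hτ⟩))) x) }
    refine hsol.not_periodic N hN fun x => Frame.carrier_injective P ?_
    rw [← hF, ← hF]
    ext z
    show (x + ((N : ℤ), 0), z) ∈ A ↔ (x, z) ∈ A
    rw [show x + ((N : ℤ), 0) = (x.1 + (N : ℤ), x.2) by simp [Prod.ext_iff]]
    exact hper x z

end Vale.Agent.P043.Three
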