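import Vale.Agent.P043.Three.Digits
import Vale.Agent.P043.Puzzle

/-!
# The window equation of one component
-/

namespace Vale.Agent.P043.Three

open Function

variable {B : Type} {P : Moduli B} {W G : Type}
variable (F : ℤ × ℤ → Frame P) (b : B) (site : W → ℤ × ℤ)
  (blk : ℤ × ℤ → W → G) (lab : W → Fin (P.q b) × Fin (P.r b))

/-- The data of piece `w` seen in the window at `X` with high digits `K`, `M`: block, row
and cell. -/
def landing (X : ℤ × ℤ) (K : ZMod (P.q b)) (M : ZMod (P.r b)) (w : W) :
    G × (Fin (P.q b) × Fin (P.r b)) × ZMod (P.p b) :=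
  (blk (X - site w) w, (F (X - site w)).low b,
    (F (X - site w)).phi b (K - ((lab w).1.1 : ZMod (P.q b)))
      (M - ((lab w).2.1 : ZMod (P.r b))))

/-- Every window receives exactly one piece in every cell. -/
def Packs : Prop := ∀ X K M, Bijective (landing F b site blk lab X K M)

/-- The block of a piece with the given shift. -/
def blockOf (shift : Own P b → ZMod 25) (x : ℤ × ℤ) (w : Own P b) : ZMod 25 :=
  (F x).five + shift w

section Full

variable (site : Own P b → ℤ × ℤ) (shift : Own P b → ZMod 25)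
  (lab : Own P b → Fin (P.q b) × Fin (P.r b))

lemma window_mem_iff (z : Pt P) (s : Idx P) :
    let w : Own P b := (s.1, s.2 b)
    z - windowMap b site shift lab s ∈ setOf' F ↔
      landing F b site (blockOf F b shift) lab z.1 (hi _ (z.2.2 b).2.1) (hi _ (z.2.2 b).2.2) w =
        (z.2.1, (lo _ (z.2.2 b).2.1, lo _ (z.2.2 b).2.2), (z.2.2 b).1) ∧
      ∀ b', b' ≠ b →
        lo _ ((z.2.2 b').2.1 - loE _ (s.2 b').2.1) = ((F (z.1 - site w)).low b').1 ∧
        lo _ ((z.2.2 b').2.2 - loE _ (s.2 b').2.2) = ((F (z.1 - site w)).low b').2 ∧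
        (z.2.2 b').1 - (s.2 b').1 = (F (z.1 - site w)).phi b'
          (hi _ ((z.2.2 b').2.1 - loE _ (s.2 b').2.1))
          (hi _ ((z.2.2 b').2.2 - loE _ (s.2 b').2.2)) := by
  classical
  intro w
  simp only [setOf', Set.mem_ofPred_eq, Frame.carrier, windowMap, Prod.fst_sub, Prod.snd_sub,
    Pi.sub_apply, landing, blockOf, w]
  constructor
  · rintro ⟨h5, h⟩
    obtain ⟨hQ, hR, hP⟩ := h b
    simp only [update_self, lo_sub_hiE, hi_sub_hiE, sub_zero] at hQ hR hP
    refine ⟨Prod.ext (by linear_combination -h5) (Prod.ext ?_ ?_), fun b' hb' => ?_⟩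
    · exact Prod.ext hQ.symm hR.symm
    · exact hP.symm
    · simpa [update_of_ne hb', emb] using h b'
  · rintro ⟨hland, h⟩
    simp only [Prod.mk.injEq] at hland
    obtain ⟨h5, hlow, hP⟩ := hland
    refine ⟨by linear_combination -h5, fun b' => ?_⟩
    by_cases hb' : b' = b
    · subst hb'
      simp only [update_self, lo_sub_hiE, hi_sub_hiE, sub_zero, hP, hlow, and_self]
    · simpa [update_of_ne hb', emb] using h b' hb'

/-- The window tiles iff every target is hit by exactly one piece. -/
theorem window_tiles_iff :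
    TilesBy (setOf' F) (windowMap b site shift lab) ↔
      Packs F b site (blockOf F b shift) lab := by
  classical
  constructor
  · intro h X K M
    rw [bijective_iff_existsUnique]
    rintro ⟨y5, ⟨a, c⟩, cell⟩
    set z : Pt P := (X, (y5, update (0 : ∀ b', Comp P b') b
      (cell, (loE _ a + hiE _ K, loE _ c + hiE _ M)))) with hz
    have hzb : z.2.2 b = (cell, (loE _ a + hiE _ K, loE _ c + hiE _ M)) := by
      simp [hz]
    obtain ⟨s, hs, hu⟩ := h z
    have hs' := (window_mem_iff F b site shift lab z s).1 hs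
    rw [hzb] at hs'
    simp only [lo_loE_add_hiE, hi_loE_add_hiE] at hs'
    refine ⟨(s.1, s.2 b), hs'.1, fun w hw => ?_⟩
    -- complete `w` in the other components
    have hc : ∀ b', ∃ t : Low P b',
        lo _ ((z.2.2 b').2.1 - loE _ t.2.1) = ((F (X - site w)).low b').1 ∧
        lo _ ((z.2.2 b').2.2 - loE _ t.2.2) = ((F (X - site w)).low b').2 ∧
        (z.2.2 b').1 - t.1 = (F (X - site w)).phi b'
          (hi _ ((z.2.2 b').2.1 - loE _ t.2.1)) (hi _ ((z.2.2 b').2.2 - loE _ t.2.2)) := by
      intro b'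
      obtain ⟨u, hu, -⟩ := existsUnique_lo_sub (z.2.2 b').2.1 ((F (X - site w)).low b').1
      obtain ⟨v, hv, -⟩ := existsUnique_lo_sub (z.2.2 b').2.2 ((F (X - site w)).low b').2
      exact ⟨((z.2.2 b').1 - (F (X - site w)).phi b' (hi _ ((z.2.2 b').2.1 - loE _ u))
        (hi _ ((z.2.2 b').2.2 - loE _ v)), (u, v)), hu, hv, sub_sub_cancel _ _⟩
    choose t ht using hc
    let s₁ : Idx P := (w.1, update t b w.2)
    have hs₁ : z - windowMap b site shift lab s₁ ∈ setOf' F := by
      refine (window_mem_iff F b site shift lab z s₁).2 ?_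
      simp only [s₁, update_self, hzb, lo_loE_add_hiE, hi_loE_add_hiE]
      refine ⟨hw, fun b' hb' => ?_⟩
      rw [update_of_ne hb']
      exact ht b'
    have := hu s₁ hs₁
    rw [← this]
    simp [s₁]
  · intro h z
    obtain ⟨w, hw, hwu⟩ := (h z.1 (hi _ (z.2.2 b).2.1) (hi _ (z.2.2 b).2.2)).existsUnique
      (z.2.1, (lo _ (z.2.2 b).2.1, lo _ (z.2.2 b).2.2), (z.2.2 b).1)
    choose u hu huu using fun b' =>
      existsUnique_lo_sub (z.2.2 b').2.1 ((F (z.1 - site w)).low b').1
    choose v hv hvu using fun b' =>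
      existsUnique_lo_sub (z.2.2 b').2.2 ((F (z.1 - site w)).low b').2
    let t : ∀ b', Low P b' := fun b' => ((z.2.2 b').1 - (F (z.1 - site w)).phi b'
      (hi _ ((z.2.2 b').2.1 - loE _ (u b'))) (hi _ ((z.2.2 b').2.2 - loE _ (v b'))), (u b', v b'))
    refine ⟨(w.1, update t b w.2), ?_, fun s hs => ?_⟩
    · show z - windowMap b site shift lab (w.1, update t b w.2) ∈ setOf' F
      refine (window_mem_iff F b site shift lab z _).2 ?_
      simp only [update_self]
      refine ⟨hw, fun b' hb' => ?_⟩
      rw [update_of_ne hb']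
      exact ⟨hu b', hv b', sub_sub_cancel _ _⟩
    · obtain ⟨h1, h2⟩ := (window_mem_iff F b site shift lab z s).1 hs
      have hsw : ((s.1, s.2 b) : Own P b) = w := hwu _ h1
      refine Prod.ext (congrArg Prod.fst hsw : _) (funext fun b' => ?_)
      by_cases hb' : b' = b
      · subst hb'
        simp only [update_self]
        exact congrArg Prod.snd hsw
      · obtain ⟨g1, g2, g3⟩ := h2 b' hb'
        rw [hsw] at g1 g2 g3
        have e1 := huu b' _ g1
        have e2 := hvu b' _ g2
        simp only [update_of_ne hb', t]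
        refine Prod.ext ?_ (Prod.ext e1 e2)
        rw [e1, e2] at g3
        simp only
        linear_combination -g3

end Full

/-- With as many pieces as targets, injectivity suffices. -/
theorem packs_of_injective [Fintype W] [Fintype G]
    (hcard : Fintype.card W = Fintype.card G * (P.q b * P.r b * P.p b))
    (h : ∀ X K M, Injective (landing F b site blk lab X K M)) :
    Packs F b site blk lab := by
  intro X K M
  refine (Fintype.bijective_iff_injective_and_card _).2 ⟨h X K M, ?_⟩
  simp only [hcard, Fintype.card_prod, ZMod.card, Fintype.card_fin]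

/-- Two pieces at one site forbid a constant component. -/
theorem not_alpha_and_beta (h : Packs F b site blk lab)
    (w w' : W) (hne : w ≠ w') (hsite : site w = site w')
    (hblk : ∀ x, blk x w = blk x w')
    (x : ℤ × ℤ) : ¬((F x).Alpha b ∧ (F x).Beta b) := by
  rintro ⟨hA, hB⟩
  refine hne ((h (x + site w) 0 0).injective ?_)
  simp only [landing, hsite, hblk, add_sub_cancel_right]
  refine Prod.ext rfl (Prod.ext rfl ?_)
  exact (hA _ _ _).trans (hB _ _ _)

/-- Swapping the first labels of two pieces. -/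
theorem swap_fst (h : Packs F b site blk lab)
    [DecidableEq W] (w₁ w₂ : W)
    (h' : Packs F b site blk fun w => ((lab (Equiv.swap w₁ w₂ w)).1, (lab w).2))
    (X : ℤ × ℤ) (K : ZMod (P.q b)) (M : ZMod (P.r b)) :
    let d : ZMod (P.q b) := ((lab w₁).1.1 : ZMod (P.q b)) - ((lab w₂).1.1 : ZMod (P.q b))
    let x₁ := X - site w₁
    let x₂ := X - site w₂
    (F x₁).phi b (K + d) M = (F x₁).phi b K M ∨
      (blk x₂ w₂ = blk x₁ w₁ ∧ (F x₂).low b = (F x₁).low b ∧
        (F x₂).phi b K (M + ((lab w₁).2.1 : ZMod (P.r b)) - ((lab w₂).2.1 : ZMod (P.r b)))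
          = (F x₁).phi b K M) := by
  intro d x₁ x₂
  set A₁ : ZMod (P.q b) := ((lab w₁).1.1 : ZMod (P.q b))
  set B₁ : ZMod (P.r b) := ((lab w₁).2.1 : ZMod (P.r b))
  obtain ⟨w, hw, -⟩ := (h' X (K + A₁) (M + B₁)).existsUnique
    (landing F b site blk lab X (K + A₁) (M + B₁) w₁)
  by_cases e1 : w = w₁
  · subst e1
    left
    have := congrArg (fun t => t.2.2) hw
    simp only [landing, Equiv.swap_apply_left, A₁, B₁, add_sub_cancel_right] at this
    simp only [d, ← add_sub_assoc]
    exact this
  by_cases e2 : w = w₂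
  · subst e2
    right
    simp only [landing, Equiv.swap_apply_right, A₁, B₁, add_sub_cancel_right,
      Prod.mk.injEq] at hw
    exact hw
  · exfalso
    have : landing F b site blk lab X (K + A₁) (M + B₁) w
        = landing F b site blk lab X (K + A₁) (M + B₁) w₁ := by
      rw [← hw]
      simp only [landing, Equiv.swap_apply_of_ne_of_ne e1 e2]
    exact e1 ((h X _ _).injective this)

/-- Swapping the second labels of two pieces. -/
theorem swap_snd (h : Packs F b site blk lab)
    [DecidableEq W] (w₁ w₂ : W)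
    (h' : Packs F b site blk fun w => ((lab w).1, (lab (Equiv.swap w₁ w₂ w)).2))
    (X : ℤ × ℤ) (K : ZMod (P.q b)) (M : ZMod (P.r b)) :
    let d : ZMod (P.r b) := ((lab w₁).2.1 : ZMod (P.r b)) - ((lab w₂).2.1 : ZMod (P.r b))
    let x₁ := X - site w₁
    let x₂ := X - site w₂
    (F x₁).phi b K (M + d) = (F x₁).phi b K M ∨
      (blk x₂ w₂ = blk x₁ w₁ ∧ (F x₂).low b = (F x₁).low b ∧
        (F x₂).phi b (K + ((lab w₁).1.1 : ZMod (P.q b)) - ((lab w₂).1.1 : ZMod (P.q b))) M
          = (F x₁).phi b K M) := by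
  intro d x₁ x₂
  set A₁ : ZMod (P.q b) := ((lab w₁).1.1 : ZMod (P.q b))
  set B₁ : ZMod (P.r b) := ((lab w₁).2.1 : ZMod (P.r b))
  obtain ⟨w, hw, -⟩ := (h' X (K + A₁) (M + B₁)).existsUnique
    (landing F b site blk lab X (K + A₁) (M + B₁) w₁)
  by_cases e1 : w = w₁
  · subst e1
    left
    have := congrArg (fun t => t.2.2) hw
    simp only [landing, Equiv.swap_apply_left, A₁, B₁, add_sub_cancel_right] at this
    simp only [d, ← add_sub_assoc]
    exact this
  by_cases e2 : w = w₂
  · subst e2
    right
    simp only [landing, Equiv.swap_apply_right, A₁, B₁, add_sub_cancel_right,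
      Prod.mk.injEq] at hw
    exact hw
  · exfalso
    have : landing F b site blk lab X (K + A₁) (M + B₁) w
        = landing F b site blk lab X (K + A₁) (M + B₁) w₁ := by
      rw [← hw]
      simp only [landing, Equiv.swap_apply_of_ne_of_ne e1 e2]
    exact e1 ((h X _ _).injective this)

/-- Labelings that are injective on the classes of two kinds. -/
def ValidLab {C D : Type} (key₁ : W → C) (key₂ : W → D)
    (lab : W → Fin (P.q b) × Fin (P.r b)) : Prop :=
  (∀ w w', key₁ w = key₁ w' → (lab w).1 = (lab w').1 → w = w') ∧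
  (∀ w w', key₂ w = key₂ w' → (lab w).2 = (lab w').2 → w = w')

variable {C D : Type} (key₁ : W → C) (key₂ : W → D)

/-- A component ignoring only the second variable is copied to the class mates. -/
theorem alpha_spreads
    (hall : ∀ L, ValidLab b key₁ key₂ L → Packs F b site blk L)
    (hlab : ValidLab b key₁ key₂ lab) (w₁ w₂ : W) (hkey : key₁ w₁ = key₁ w₂)
    (X : ℤ × ℤ) (hA : (F (X - site w₁)).Alpha b) (hB : ¬(F (X - site w₁)).Beta b) :
    blk (X - site w₂) w₂ = blk (X - site w₁) w₁ ∧
      (F (X - site w₂)).low b = (F (X - site w₁)).low b ∧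
      (F (X - site w₂)).phi b = (F (X - site w₁)).phi b := by
  classical
  by_cases hw : w₁ = w₂
  · subst hw; exact ⟨rfl, rfl, rfl⟩
  have hq : ∀ K : ZMod (P.q b), ∀ M,
      blk (X - site w₂) w₂ = blk (X - site w₁) w₁ ∧
        (F (X - site w₂)).low b = (F (X - site w₁)).low b ∧
        (F (X - site w₂)).phi b K M = (F (X - site w₁)).phi b K M := by
    intro K M
    obtain ⟨K', hK'⟩ : ∃ K', (F (X - site w₁)).phi b K' M ≠ (F (X - site w₁)).phi b K M := by
      by_contra hne
      simp only [not_exists, not_not] at hne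
      exact hB fun K₁ K₂ M' => (hA K₁ M' M).trans
        ((hne K₁).trans ((hne K₂).symm.trans (hA K₂ M M')))
    have hd : K' - K ≠ 0 := sub_ne_zero.2 fun e => hK' (by rw [e])
    -- a relabelling taking the two first labels to `K' - K` and `0`
    have hne1 : (lab w₁).1 ≠ (lab w₂).1 := fun e => hw (hlab.1 _ _ hkey e)
    let t₁ : Fin (P.q b) := ⟨(K' - K).val, ZMod.val_lt _⟩
    have ht : t₁ ≠ 0 := fun e => hd <| by
      rw [← ZMod.natCast_zmod_val (K' - K)]
      have := congrArg Fin.val e
      simp only [t₁, Fin.val_zero] at this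
      rw [this, Nat.cast_zero]
    obtain ⟨σ, hσ1, hσ2⟩ : ∃ σ : Equiv.Perm (Fin (P.q b)), σ (lab w₁).1 = t₁ ∧
        σ (lab w₂).1 = 0 := by
      let σ₁ := Equiv.swap (lab w₁).1 t₁
      refine ⟨Equiv.swap (σ₁ (lab w₂).1) 0 * σ₁, ?_, by simp⟩
      simp only [Equiv.Perm.mul_apply, σ₁, Equiv.swap_apply_left]
      exact Equiv.swap_apply_of_ne_of_ne
        (fun e => hne1 (σ₁.injective (by simpa [σ₁] using e))) ht
    let L : W → Fin (P.q b) × Fin (P.r b) := fun w => (σ (lab w).1, (lab w).2)
    have hL : ValidLab b key₁ key₂ L :=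
      ⟨fun w w' hk e => hlab.1 w w' hk (σ.injective e), fun w w' hk e => hlab.2 w w' hk e⟩
    have hswap : ∀ w, key₁ (Equiv.swap w₁ w₂ w) = key₁ w := by
      intro w
      rw [Equiv.swap_apply_def]
      split_ifs with a a
      · rw [a, hkey]
      · rw [a, hkey]
      · rfl
    have hL' : ValidLab b key₁ key₂ fun w => ((L (Equiv.swap w₁ w₂ w)).1, (L w).2) :=
      ⟨fun w w' hk e => (Equiv.swap w₁ w₂).injective
        (hL.1 _ _ (by rw [hswap, hswap, hk]) e), fun w w' hk e => hL.2 w w' hk e⟩
    have h := swap_fst F b site blk L (hall L hL) w₁ w₂ (hall _ hL') X K M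
    simp only [L, hσ1, hσ2, t₁, Fin.val_zero, Nat.cast_zero, sub_zero,
      ZMod.natCast_zmod_val, add_sub_cancel] at h
    rcases h with h | ⟨h5, hlow, hphi⟩
    · exact absurd h hK'
    · refine ⟨h5, hlow, ?_⟩
      have hM : ∀ N, (F (X - site w₂)).phi b K
          (N + ((lab w₁).2.1 : ZMod (P.r b)) - ((lab w₂).2.1 : ZMod (P.r b)))
          = (F (X - site w₁)).phi b K N := by
        intro N
        have h := swap_fst F b site blk L (hall L hL) w₁ w₂ (hall _ hL') X K N
        simp only [L, hσ1, hσ2, t₁, Fin.val_zero, Nat.cast_zero, sub_zero,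
          ZMod.natCast_zmod_val, add_sub_cancel] at h
        rcases h with h | ⟨-, -, h⟩
        · exact absurd ((hA _ _ _).trans (h.trans (hA _ _ _))) hK'
        · exact h
      have := hM (M - ((lab w₁).2.1 : ZMod (P.r b)) + ((lab w₂).2.1 : ZMod (P.r b)))
      rw [show M - ((lab w₁).2.1 : ZMod (P.r b)) + ((lab w₂).2.1 : ZMod (P.r b)) +
        ((lab w₁).2.1 : ZMod (P.r b)) - ((lab w₂).2.1 : ZMod (P.r b)) = M by ring] at this
      exact this.trans (hA _ _ _)
  exact ⟨(hq 0 0).1, (hq 0 0).2.1, funext fun K => funext fun M => (hq K M).2.2⟩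

/-- A component ignoring only the first variable is copied to the class mates. -/
theorem beta_spreads
    (hall : ∀ L, ValidLab b key₁ key₂ L → Packs F b site blk L)
    (hlab : ValidLab b key₁ key₂ lab) (w₁ w₂ : W) (hkey : key₂ w₁ = key₂ w₂)
    (X : ℤ × ℤ) (hB : (F (X - site w₁)).Beta b) (hA : ¬(F (X - site w₁)).Alpha b) :
    blk (X - site w₂) w₂ = blk (X - site w₁) w₁ ∧
      (F (X - site w₂)).low b = (F (X - site w₁)).low b ∧
      (F (X - site w₂)).phi b = (F (X - site w₁)).phi b := by
  classical
  by_cases hw : w₁ = w₂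
  · subst hw; exact ⟨rfl, rfl, rfl⟩
  have hq : ∀ K : ZMod (P.q b), ∀ M,
      blk (X - site w₂) w₂ = blk (X - site w₁) w₁ ∧
        (F (X - site w₂)).low b = (F (X - site w₁)).low b ∧
        (F (X - site w₂)).phi b K M = (F (X - site w₁)).phi b K M := by
    intro K M
    obtain ⟨M', hM'⟩ : ∃ M', (F (X - site w₁)).phi b K M' ≠ (F (X - site w₁)).phi b K M := by
      by_contra hne
      simp only [not_exists, not_not] at hne
      exact hA fun K' M₁ M₂ => (hB K' K M₁).trans
        ((hne M₁).trans ((hne M₂).symm.trans (hB K K' M₂)))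
    have hd : M' - M ≠ 0 := sub_ne_zero.2 fun e => hM' (by rw [e])
    have hne2 : (lab w₁).2 ≠ (lab w₂).2 := fun e => hw (hlab.2 _ _ hkey e)
    let t₁ : Fin (P.r b) := ⟨(M' - M).val, ZMod.val_lt _⟩
    have ht : t₁ ≠ 0 := fun e => hd <| by
      rw [← ZMod.natCast_zmod_val (M' - M)]
      have := congrArg Fin.val e
      simp only [t₁, Fin.val_zero] at this
      rw [this, Nat.cast_zero]
    obtain ⟨σ, hσ1, hσ2⟩ : ∃ σ : Equiv.Perm (Fin (P.r b)), σ (lab w₁).2 = t₁ ∧
        σ (lab w₂).2 = 0 := by
      let σ₁ := Equiv.swap (lab w₁).2 t₁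
      refine ⟨Equiv.swap (σ₁ (lab w₂).2) 0 * σ₁, ?_, by simp⟩
      simp only [Equiv.Perm.mul_apply, σ₁, Equiv.swap_apply_left]
      exact Equiv.swap_apply_of_ne_of_ne
        (fun e => hne2 (σ₁.injective (by simpa [σ₁] using e))) ht
    let L : W → Fin (P.q b) × Fin (P.r b) := fun w => ((lab w).1, σ (lab w).2)
    have hL : ValidLab b key₁ key₂ L :=
      ⟨fun w w' hk e => hlab.1 w w' hk e, fun w w' hk e => hlab.2 w w' hk (σ.injective e)⟩
    have hswap : ∀ w, key₂ (Equiv.swap w₁ w₂ w) = key₂ w := by
      intro w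
      rw [Equiv.swap_apply_def]
      split_ifs with a a
      · rw [a, hkey]
      · rw [a, hkey]
      · rfl
    have hL' : ValidLab b key₁ key₂ fun w => ((L w).1, (L (Equiv.swap w₁ w₂ w)).2) :=
      ⟨fun w w' hk e => hL.1 w w' hk e, fun w w' hk e => (Equiv.swap w₁ w₂).injective
        (hL.2 _ _ (by rw [hswap, hswap, hk]) e)⟩
    have h := swap_snd F b site blk L (hall L hL) w₁ w₂ (hall _ hL') X K M
    simp only [L, hσ1, hσ2, t₁, Fin.val_zero, Nat.cast_zero, sub_zero,
      ZMod.natCast_zmod_val, add_sub_cancel] at h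
    rcases h with h | ⟨h5, hlow, hphi⟩
    · exact absurd h hM'
    · exact ⟨h5, hlow, by
        have hK : ∀ N, (F (X - site w₂)).phi b
            (N + ((lab w₁).1.1 : ZMod (P.q b)) - ((lab w₂).1.1 : ZMod (P.q b))) M
            = (F (X - site w₁)).phi b N M := by
          intro N
          have h := swap_snd F b site blk L (hall L hL) w₁ w₂ (hall _ hL') X N M
          simp only [L, hσ1, hσ2, t₁, Fin.val_zero, Nat.cast_zero, sub_zero,
            ZMod.natCast_zmod_val, add_sub_cancel] at h
          rcases h with h | ⟨-, -, h⟩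
          · exact absurd ((hB _ _ _).trans (h.trans (hB _ _ _))) hM'
          · exact h
        have := hK (K - ((lab w₁).1.1 : ZMod (P.q b)) + ((lab w₂).1.1 : ZMod (P.q b)))
        rw [show K - ((lab w₁).1.1 : ZMod (P.q b)) + ((lab w₂).1.1 : ZMod (P.q b)) +
          ((lab w₁).1.1 : ZMod (P.q b)) - ((lab w₂).1.1 : ZMod (P.q b)) = K by ring] at this
        exact this.trans (hB _ _ _)⟩
  exact ⟨(hq 0 0).1, (hq 0 0).2.1, funext fun K => funext fun M => (hq K M).2.2⟩

/-- Classes that share block and row contradict coprimality. -/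
theorem class_count [Fintype C] [DecidableEq C]
    (h : Packs F b site blk lab) (X : ℤ × ℤ) {k : ℕ}
    (hk : ¬k ∣ P.p b) [Fintype W] (w₀ : W) (key : W → C)
    (hcard : ∀ c, (Finset.univ.filter fun w => key w = c).card = k)
    (hconst : ∀ w w', key w = key w' →
      blk (X - site w') w' = blk (X - site w) w ∧
        (F (X - site w')).low b = (F (X - site w)).low b) : False := by
  classical
  have hb := h X 0 0
  let f : W → G × (Fin (P.q b) × Fin (P.r b)) := fun w =>
    (blk (X - site w) w, (F (X - site w)).low b)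
  have hf : ∀ w, f w = ((landing F b site blk lab X 0 0 w).1,
      (landing F b site blk lab X 0 0 w).2.1) := fun w => rfl
  let S := Finset.univ.filter fun w => f w = f w₀
  have hS : S.card = P.p b := by
    rw [← ZMod.card (P.p b), ← Finset.card_univ]
    refine Finset.card_bij (fun w _ => (landing F b site blk lab X 0 0 w).2.2)
      (fun _ _ => Finset.mem_univ _) (fun w hw w' hw' e => ?_) (fun c _ => ?_)
    · simp only [S, Finset.mem_filter, Finset.mem_univ, true_and] at hw hw'
      have e' := hw.trans hw'.symm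
      rw [hf, hf, Prod.mk.injEq] at e'
      exact hb.injective (Prod.ext e'.1 (Prod.ext e'.2 e))
    · obtain ⟨w, hw⟩ := hb.surjective ((f w₀).1, (f w₀).2, c)
      refine ⟨w, ?_, by rw [hw]⟩
      simp only [S, Finset.mem_filter, Finset.mem_univ, true_and]
      rw [hf, hw]
  apply hk
  rw [← hS, Finset.card_eq_sum_card_fiberwise (f := key) (t := Finset.univ)
    (fun _ _ => Finset.mem_univ _)]
  refine Finset.dvd_sum fun c _ => ?_
  by_cases hc : ∃ w ∈ S, key w = c
  · obtain ⟨w, hwS, hwc⟩ := hc
    rw [show S.filter (fun w => key w = c) = Finset.univ.filter fun w => key w = c from ?_,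
      hcard]
    ext w'
    simp only [Finset.mem_filter, Finset.mem_univ, true_and, and_iff_right_iff_imp, S]
    intro hw'
    simp only [S, Finset.mem_filter, Finset.mem_univ, true_and] at hwS
    obtain ⟨a, a'⟩ := hconst w w' (hwc.trans hw'.symm)
    exact (Prod.ext a a').trans hwS
  · rw [Finset.filter_eq_empty_iff.2 (fun w hw e => hc ⟨w, hw, e⟩), Finset.card_empty]
    exact dvd_zero k

/-- The index of a piece when only the low offset digit matters. -/
abbrev Red (P : Moduli B) (b : B) := ZMod 5 × Low P b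

/-- The element with the given high offset digit. -/
def digitE (h : ZMod 5) : ZMod 25 := 5 * ((h.val : ℕ) : ZMod 25)

lemma digitE_eq : ∀ y y' : ZMod 25, red y = red y' → ∃ d, y' = y + digitE d := by decide

lemma red_digitE : ∀ d, red (digitE d) = 0 := by decide

lemma digitE_add : ∀ d d' : ZMod 5, digitE (d + d') = digitE d + digitE d' := by decide

lemma digitE_injective : ∀ d d' : ZMod 5, digitE d = digitE d' → d = d' := by decide

/-- The two digits of an offset. -/
noncomputable def digits25 : ZMod 25 ≃ ZMod 5 × ZMod 5 :=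
  Equiv.ofBijective (fun s => (red s, ((s.val / 5 : ℕ) : ZMod 5))) (by decide)

/-- Forgetting the high digit of a piece. -/
noncomputable def dropHigh (w : Own P b) : Red P b := ((digits25 w.1).1, w.2)

/-- When the pieces take every high digit, only the low digit of the offsets matters. -/
theorem packs_reduced [Fintype B] (site : Red P b → ℤ × ℤ) (shift : Red P b → ZMod 25)
    (lab : Red P b → Fin (P.q b) × Fin (P.r b)) :
    Packs F b (site ∘ dropHigh b)
        (blockOf F b fun w => shift (dropHigh b w) + digitE (digits25 w.1).2) (lab ∘ dropHigh b) ↔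
      Packs F b site (fun x u => red ((F x).five + shift u)) lab := by
  have hs : ∀ (u : Red P b) d, dropHigh b (digits25.symm (u.1, d), u.2) = u ∧
      (digits25 (digits25.symm (u.1, d))).2 = d := fun u d => by simp [dropHigh]
  refine forall_congr' fun X => forall_congr' fun K => forall_congr' fun M => ?_
  constructor
  · intro h
    refine (Fintype.bijective_iff_injective_and_card _).2 ⟨fun u u' e => ?_, ?_⟩
    · simp only [landing, Prod.mk.injEq] at e
      obtain ⟨d, hd⟩ := digitE_eq _ _ e.1
      have := h.injective (a₁ := (digits25.symm (u'.1, 0), u'.2))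
        (a₂ := (digits25.symm (u.1, d), u.2)) ?_
      · simpa [(hs _ _).1] using (congrArg (dropHigh b) this).symm
      · simp only [landing, blockOf, comp_apply, hs, Prod.mk.injEq, e.2, and_true]
        rw [show digitE 0 = 0 from rfl, add_zero, hd, add_assoc]
    · simp only [Fintype.card_prod, ZMod.card, Fintype.card_fin]; ring
  · intro h
    refine (Fintype.bijective_iff_injective_and_card _).2 ⟨fun w w' e => ?_, ?_⟩
    · simp only [landing, blockOf, comp_apply, Prod.mk.injEq] at e
      have hu : dropHigh b w = dropHigh b w' := h.injective (by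
        simp only [landing, e.2, Prod.mk.injEq, and_true]
        have := congrArg red e.1
        simpa [map_add, red_digitE] using this)
      rw [hu] at e
      have hd := digitE_injective _ _ (add_left_cancel (add_left_cancel e.1))
      simp only [dropHigh, Prod.mk.injEq] at hu
      exact Prod.ext (digits25.injective (Prod.ext hu.1 hd)) hu.2
    · simp only [Fintype.card_prod, ZMod.card, Fintype.card_fin]; ring

end Vale.Agent.P043.Three
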